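import Vale.Agent.P215.TV.Kinds
import Vale.Agent.P215.Am.Tower
import Vale.Agent.P215.Am.Main

/-!
# P215: systems with kinds

`Kd S kd`: the kinds `kd` of the darts of the labelled system `S` are compatible with `flip`, and
three darts on the three legs of a branch are tame.
-/

noncomputable section

namespace Vale.Agent.P215.TV

open Vale.Agent.P215.H788 Vale.Agent.P215.Am Set Topology

variable {Γ : Type} [Group Γ]

/-- The kinds of the darts. -/
structure Kd (S : LabSys Γ) (kd : S.K → Bool ⊕ Finset Γ) : Prop where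
  flip : ∀ k, kd (S.flip k) = Sum.map (fun b => !b) id (kd k)
  tame : ∀ f : Fin 3 → S.K, (∀ l l', S.vert (f l) = S.vert (f l')) → (∀ l, S.leg (f l) = l) →
    TameAt (fun l => S.t (f l)) (fun l => kd (f l))

theorem Kd.remove {S : LabSys Γ} {kd : S.K → Bool ⊕ Finset Γ} (h : Kd S kd) (v : S.V) :
    Kd (S.remove v) (fun k => kd k.1) where
  flip k := h.flip k.1
  tame f h1 h2 := h.tame (fun l => (f l).1) (fun l l' => congrArg Subtype.val (h1 l l')) h2

theorem Kd.split {S : LabSys Γ} {kd : S.K → Bool ⊕ Finset Γ} (h : Kd S kd) (i : Fin 3) :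
    Kd (S.split i) (fun k => kd k.1.1) where
  flip k := h.flip k.1.1
  tame f h1 h2 := by
    refine h.tame (fun l => (f l).1.1) (fun l l' => ?_) h2
    have e1 : (f l).1.2.1 = (f l').1.2.1 := congrArg Subtype.val (h1 l l')
    have f0 : S.vert (f l).1.2.1 = S.vert (f l).1.1 := (f l).2.1.2.1
    have f1 : S.vert (f l').1.2.1 = S.vert (f l').1.1 := (f l').2.1.2.1
    rw [← f0, ← f1, e1]

theorem Kd.tameAt {S : LabSys Γ} {kd : S.K → Bool ⊕ Finset Γ} (h : Kd S kd) (hf : S.Full)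
    (x : (Tower.ofSys S hf).port.X) :
    TameAt (fun l => (Tower.ofSys S hf).types.t ((Tower.ofSys S hf).port.dart x l))
      (fun l => kd ((Tower.ofSys S hf).port.dart x l)) := by
  have hv : ∀ l, S.vert ((Tower.ofSys S hf).port.dart x l) = x.1 0 :=
    fun l => (Tower.ofSys S hf).dt_vert x l 0
  have hl : ∀ l, S.leg ((Tower.ofSys S hf).port.dart x l) = l :=
    fun l => (Tower.ofSys S hf).dt_leg x l 0
  exact h.tame (fun l => (Tower.ofSys S hf).port.dart x l) (fun l l' => by rw [hv, hv]) hl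

/-- **The combinatorial theorem for tame systems.** -/
theorem comb_of_kinds (R₁ R₂ : LabSys Γ → Prop)
    (hrem : ∀ S v l, R₁ S → (∀ k, S.vert k = v → S.leg k ≠ l) → R₁ (S.remove v))
    (hsplit : ∀ S i, R₁ S → S.Full → R₁ (S.split i))
    (h12 : ∀ S, R₁ S → R₂ S)
    (hpush : ∀ S u a b, a ≠ b → ∀ (ha : S.NoSelf u a) (hb : S.NoSelf u b), R₂ S →
      ∃ n, R₂ (S.push u a b n ha hb))
    (S₀ : LabSys Γ) (h₀ : R₁ S₀) (hs : ∃ kd, Kd S₀ kd) : ∃ S, R₂ S ∧ S.Final := by
  obtain ⟨S₁, ⟨h₁, kd, hs₁⟩, hf⟩ := exists_full (R := fun S => R₁ S ∧ ∃ kd, Kd S kd)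
    (fun S v l h hv => ⟨hrem S v l h.1 hv, by
      obtain ⟨kd, hs⟩ := h.2
      exact ⟨_, hs.remove v⟩⟩) S₀ ⟨h₀, hs⟩
  let kd' : (Tower.ofSys S₁ hf).types.K → Bool ⊕ Finset Γ := kd
  have hk : ∀ k, kd' ((Tower.ofSys S₁ hf).types.flip k) = Sum.map (fun b => !b) id (kd' k) :=
    hs₁.flip
  obtain ⟨n, st, hloc, hne, hrel⟩ := Port.exists_rule_kinds (P := (Tower.ofSys S₁ hf).port)
    hk (hs₁.tameAt hf)
  obtain ⟨st', hadm⟩ := (Tower.ofSys S₁ hf).exists_adm hloc hne hrel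
  exact LabSys.exists_final hpush _ (h12 _ (Tower.ofSys_mem hsplit S₁ hf h₁ n)) st' hadm

/-- **The assembly for tame systems.** -/
theorem null_of_pieces {L : Fin 3 → Q → Q} (hL : ThreeLegData L) (hpush : SysPushStatement L)
    (G : CappedGrope) (φ : FundamentalGroup G.Thickening G.basePt →* Γ)
    (S₀ : LabSys Γ) (h₀ : RzSep G.attach (Coc.ofHom φ) L S₀) (hs : ∃ kd, Kd S₀ kd) :
    ∃ D : FramedDisc G.Thickening G.attach, D.Kills φ := by
  obtain ⟨S, hS1, hS2⟩ := comb_of_kinds (RzSep G.attach (Coc.ofHom φ) L)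
    (Rz G.attach (Coc.ofHom φ) L)
    (fun S v l h hv => h.remove v (hL.contract l).some hv)
    (fun S i h hf => h.split i (fun D _ q h1 h2 h3 => hL.split i D q h1 h2 h3) hf)
    (fun S h => h.rz)
    (fun S u a b hab ha hb h =>
      ⟨_, hpush a b hab (hL.push a b hab).some _ _ Γ _ S u ha hb h⟩)
    S₀ h₀ hs
  exact hS1.final (fun i => (hL.contract i).some) φ hS2

end Vale.Agent.P215.TV
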