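import Vale.Agent.P215.TV.Labels
import Vale.Agent.P215.TV.Comb
import Vale.Agent.P215.Am.TwoLegInst
import Vale.Agent.P215.Am.ThetaFinal
import Vale.Agent.P215.Am.SysPush

/-!
# P215: the initial system with its signs
-/

noncomputable section

namespace Vale.Agent.P215.TV

open Vale.Agent.P215.H788 Vale.Agent.P215.H579 Vale.Agent.P215.Am Vale.Agent.P215.Am.Start Set
  Topology

/-- The legs of the caps of the second stage. -/
def ix0 (b : Bool) : Fin 3 := if b then 2 else 1

theorem ix0_ne (b : Bool) : ix0 b ≠ 0 := by cases b <;> decide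

variable {G : CappedGrope}

theorem dtip_eq (x : DI G) : dtip x = tipOf G x.1 x.2 := by
  obtain ⟨k, b⟩ := x
  cases b <;> rfl

theorem tip_of_leg0 {x : DI G} {v : Br G} (hv : Over (dtip x) v) (h : lno ix0 (dtip x) = 0) :
    tipOf G x.1 x.2 = (0, (v.1 : ℕ), true) := by
  have h0 : (dtip x).1 = 0 := by
    unfold lno at h
    by_contra h1
    rw [if_neg h1] at h
    exact ix0_ne _ h
  have h1 := (capped_zero (dtip_capped x) h0).1
  rw [← dtip_eq]
  rcases hv with ⟨-, h2⟩ | ⟨h2, -⟩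
  · exact Prod.ext h0 (Prod.ext h2 h1)
  · omega

theorem tip_of_leg {x : DI G} {v : Br G} (hv : Over (dtip x) v) {b : Bool}
    (h : lno ix0 (dtip x) = ix0 b) : tipOf G x.1 x.2 = ((v.1 : ℕ) + 1, (v.2 : ℕ), b) := by
  have h0 : (dtip x).1 ≠ 0 := by
    intro h1
    rw [lno, if_pos h1] at h
    exact ix0_ne _ h.symm
  rw [lno, if_neg h0] at h
  have h1 : (dtip x).2.2 = b := by
    revert h
    generalize (dtip x).2.2 = b'
    cases b <;> cases b' <;> decide
  rw [← dtip_eq]
  rcases hv with ⟨h2, -⟩ | ⟨h2, h3⟩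
  · exact absurd h2 h0
  · exact Prod.ext h2 (Prod.ext h3 h1)

variable {Γ : Type} [Group Γ]

theorem isLabel_conj {X : Type} [TopologicalSpace X] {c : Coc X Γ} {K : Type} {S : Darts K}
    {F : Q → X} {t : K → Γ} (h : IsLabel c S F t) (a : Γ) :
    IsLabel c S F (fun k => a * t k * a⁻¹) := by
  obtain ⟨h, hp, hh⟩ := h
  refine ⟨fun q => a * h q, hp.mul_left a, ?_⟩
  intro k x y
  simp only
  rw [hh k x y]
  group

theorem overlap_inv (F : Finset Γ) (g : Γ) : overlap F g⁻¹ = overlap F g := by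
  classical
  rw [overlap_eq, overlap_eq]
  refine Finset.card_bij (fun f _ => f * g⁻¹) ?_ ?_ ?_
  · intro f hf
    rw [Finset.mem_filter] at hf ⊢
    exact ⟨hf.2, by simpa using hf.1⟩
  · intro f _ f' _ h
    exact mul_right_cancel h
  · intro f hf
    rw [Finset.mem_filter] at hf
    exact ⟨f * g, by rw [Finset.mem_filter]; exact ⟨hf.2, by simpa using hf.1⟩, by simp⟩

theorem TameAt.inv {t : Fin 3 → Γ} {κ : Fin 3 → Bool ⊕ Finset Γ} (h : TameAt t κ) :
    TameAt (fun l => (t l)⁻¹) κ := by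
  rcases h with h | ⟨l, h⟩ | ⟨l, l', h, h'⟩ | ⟨F, h, h'⟩
  · exact Or.inl h
  · exact Or.inr (Or.inl ⟨l, inv_eq_one.2 h⟩)
  · exact Or.inr (Or.inr (Or.inl ⟨l, l', h, congrArg (fun a => a⁻¹) h'⟩))
  · refine Or.inr (Or.inr (Or.inr ⟨F, h, ?_⟩))
    simp only [overlap_inv]
    exact h'

/-- The labels of the initial system. -/
theorem exists_labels (T : ThetaDatum G.L) (φ : FundamentalGroup G.Thickening G.basePt →* Γ) :
    IsLabel (Coc.ofHom φ) (initDarts T) (initMap T)
      (fun x => (lab G (fun k => φ (loop G k (pathP T k) (pathQ T k))) x.1 x.2)⁻¹) := by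
  have hF := isReal_init T
  obtain ⟨t₀, ht₀⟩ := hF.exists_isLabel (c := Coc.ofHom φ)
  obtain ⟨e, he⟩ := label_eq T φ ht₀
  have h1 := isLabel_conj ht₀ e⁻¹
  have h2 : (fun k => e⁻¹ * t₀ k * e⁻¹⁻¹) =
      (fun x => (lab G (fun k => φ (loop G k (pathP T k) (pathQ T k))) x.1 x.2)⁻¹) := by
    funext ⟨k, b⟩
    cases b
    · rw [he k]
      simp only [lab, Bool.false_eq_true, if_false]
      group
    · have h3 : t₀ (k, true) = (t₀ (k, false))⁻¹ := ht₀.flip (k, false)
      rw [h3, he k]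
      simp only [lab, if_true]
      group
  rwa [h2] at h1

/-- **The initial system with its kinds.** -/
theorem exists_start_kd (T : ThetaDatum G.L) {L : Fin 3 → Q → Q} (hL : IsLegs L) {M : ℕ}
    (hM : 2 * G.plumbings.length ≤ M)
    (A : ∀ j : Fin G.genera.length, StartSplit T.leg T.sq M L ix0
      (fun k : Fin (G.genera.get j) => T.sq false k))
    (φ : FundamentalGroup G.Thickening G.basePt →* Γ)
    (κ : Fin G.plumbings.length → Bool ⊕ Finset Γ)
    (hκ : Tame G (fun k => φ (loop G k (pathP T k) (pathQ T k))) κ) :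
    ∃ S : LabSys Γ, RzSep G.attach (Coc.ofHom φ) L S ∧ ∃ kd, Kd S kd := by
  have hF := isReal_init T
  have hh := isFam_holeSq G
  have hbox : ∀ x p, (initDarts T).box x p = initBox T x p := fun _ _ => rfl
  obtain ⟨t₀, ht₀, he⟩ : ∃ t₀ : DI G → Γ, IsLabel (Coc.ofHom φ) (initDarts T) (initMap T) t₀ ∧
      ∀ x, t₀ x = (lab G (fun k => φ (loop G k (pathP T k) (pathQ T k))) x.1 x.2)⁻¹ :=
    ⟨_, exists_labels T φ, fun _ => rfl⟩
  refine ⟨startSys hM hL hh A hbox t₀ ht₀.flip, ⟨startPos hM hL hh A hbox t₀ ht₀.flip,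
    initMap T ∘ ψT A, isSep_startPos hM hL hh A hbox t₀ ht₀.flip, ?_, ?_⟩, ?_⟩
  · have h := (startPB hM hL hh A hbox).isReal hF
    exact ⟨h.cont, h.boundary, h.glue, h.inj⟩
  · exact (startPB hM hL hh A hbox).isLabel hF ht₀
  · refine ⟨fun k => kindOf G κ k.1.1.1.1.1 k.1.1.1.1.2, ?_, ?_⟩
    · intro k
      have h : k.1.2.1.1 = (k.1.1.1.1.1, !k.1.1.1.1.2) := k.2
      change kindOf G κ k.1.2.1.1.1 k.1.2.1.1.2 = _
      rw [h]
      simp only [kindOf]
      rcases κ k.1.1.1.1.1 with σ | H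
      · simp only [Sum.map_inl]
        congr 1
        cases k.1.1.1.1.2 <;> cases σ <;> rfl
      · rfl
    · intro f h1 h2
      have h3 : ∀ l l', (f l).1.1.1.2 = (f l').1.1.1.2 := fun l l' => h1 l l'
      have g0 := tip_of_leg0 (f 0).1.1.2 (h2 0)
      have g1 := tip_of_leg (f 1).1.1.2 (b := false) (h2 1)
      have g2 := tip_of_leg (f 2).1.1.2 (b := true) (h2 2)
      rw [h3 1 0] at g1
      rw [h3 2 0] at g2
      have h4 := TameAt.inv
        (hκ _ _ (fun l => (f l).1.1.1.1.1) (fun l => (f l).1.1.1.1.2) g0 g1 g2)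
      have h5 : (fun l => (startSys hM hL hh A hbox t₀ ht₀.flip).t (f l)) = fun l =>
          (lab G (fun k => φ (loop G k (pathP T k) (pathQ T k))) (f l).1.1.1.1.1
            (f l).1.1.1.1.2)⁻¹ := funext fun l => he _
      rw [h5]
      exact h4

/-- The local data of the initial step. -/
theorem exists_splits (G : CappedGrope) : ∃ T : ThetaDatum G.L,
    Nonempty (∀ j : Fin G.genera.length, StartSplit T.leg T.sq (nSq G) T0.L ix0
      (fun k : Fin (G.genera.get j) => T.sq false k)) := by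
  obtain ⟨T, hTl, hTs⟩ := thetaStatement G.L (nSq G) (L_eq G) (by
    have := G.genera_ne_nil
    have h3 : 0 < G.genera.length := List.length_pos_iff.2 this
    unfold nSq
    omega)
  refine ⟨T, ?_⟩
  have h1 : T.leg = fun k => small T0.c (T0.b k) := by
    funext k p
    exact hTl k p
  have h2 : ∀ j : Fin G.genera.length, Nonempty (StartSplit T.leg T.sq (nSq G) T0.L ix0
      (fun k : Fin (G.genera.get j) => T.sq false k)) := by
    intro j
    rw [h1]
    refine startSplit_of (ySym_of (b := T0.b) rfl rfl) T0.recenter hTs (fun p => rfl)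
      (fun p => rfl) (fun p => rfl) (G.genera_pos _ (List.get_mem _ _)) ?_
    have h3 : G.genera.get j ≤ G.genera.sum := List.le_sum_of_mem (List.get_mem _ _)
    unfold nSq
    omega
  exact ⟨fun j => (h2 j).some⟩

/-- **Tame capped gropes are null.** -/
theorem exists_null (G : CappedGrope) :
    ∃ (p : ∀ k, Path (base0 G) (sheet G k false)) (q : ∀ k, Path (sheet G k true) (base0 G)),
      ∀ (Γ : Type) [Group Γ] (φ : FundamentalGroup G.Thickening G.basePt →* Γ)
        (κ : Fin G.plumbings.length → Bool ⊕ Finset Γ),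
        Tame G (fun k => φ (loop G k (p k) (q k))) κ →
        ∃ D : FramedDisc G.Thickening G.attach, D.Kills φ := by
  obtain ⟨T, ⟨A⟩⟩ := exists_splits G
  refine ⟨pathP T, pathQ T, ?_⟩
  intro Γ _ φ κ hκ
  obtain ⟨S, hS, hs⟩ := exists_start_kd T T0.isLegs (by unfold nSq; omega) A φ κ hκ
  exact null_of_pieces threeLegData
    (fun _ _ hab P _ _ _ _ _ _ _ _ ha hb h => Rz.push hab P ha hb h) G φ S hS hs

end Vale.Agent.P215.TV
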