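import Vale.Agent.P215.Am.Walk

/-!
# P215: far vertices
-/

noncomputable section

namespace Vale.Agent.P215.Am

open Classical in
/-- An element with the property `p`, if there is one. -/
def anyOf {A : Type*} (p : A → Prop) (d : A) : A := if h : ∃ l, p l then h.choose else d

theorem anyOf_spec {A : Type*} {p : A → Prop} {d : A} (h : ∃ l, p l) : p (anyOf p d) := by
  rw [anyOf, dif_pos h]
  exact h.choose_spec

namespace Port

variable {Γ : Type} [Group Γ] {T : Types Γ} (P : Port T)

theorem Far.mono {P : Port T} {m M : ℕ} (hm : m ≤ M) {x : P.X} (h : P.Far M x) : P.Far m x :=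
  fun u hu hl w hw hr hl' => h u hu (hl.trans hm) w hw hr (hl'.trans hm)

/-- The label of a dart at a far vertex is not trivial. -/
theorem Far.ne_one {P : Port T} {M : ℕ} (hM : 1 ≤ M) {x : P.X} (h : P.Far M x) (l : Fin 3) :
    T.t (P.dart x l) ≠ 1 := by
  intro h1
  refine h [] trivial (Nat.zero_le _) [l] (List.cons_ne_nil _ _) trivial hM ?_
  simp only [wEnd_nil, wVal_cons, wVal_nil, mul_one]
  exact h1

/-- The labels of the darts at a far vertex are different. -/
theorem Far.ne_of_ne {P : Port T} {M : ℕ} (hM : 2 ≤ M) {x : P.X} (h : P.Far M x) {l l' : Fin 3}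
    (hl : l ≠ l') : T.t (P.dart x l) ≠ T.t (P.dart x l') := by
  intro h1
  refine h [l] trivial (by simp; omega) [P.bk x l, l'] (List.cons_ne_nil _ _) ⟨?_, trivial⟩ hM ?_
  · rw [wEnd_cons, wEnd_nil, bk_bk]
    exact hl.symm
  · simp only [wEnd_cons, wEnd_nil, wVal_cons, wVal_nil, mul_one, nb_bk, lab_bk]
    rw [lab, lab, h1, inv_mul_cancel]

end Port

end Vale.Agent.P215.Am
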