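import Vale.Agent.P215.TV.Start

/-!
# P215: capped gropes with two values
-/

noncomputable section

namespace Vale.Agent.P215.TV

open Vale.Agent.P215.H788 Vale.Agent.P215.Am Set Topology

variable {Γ : Type} [Group Γ]

/-- A set which contains exactly one element of each pair `{x, x⁻¹}`. -/
theorem exists_half (Γ : Type) [Group Γ] : ∃ N : Set Γ, (∀ x, x ∈ N ∨ x⁻¹ ∈ N) ∧
    ∀ x, x ∈ N → x⁻¹ ∈ N → x = x⁻¹ := by
  refine ⟨{x | ¬ WellOrderingRel x⁻¹ x}, ?_, ?_⟩
  · intro x
    by_cases h : WellOrderingRel x⁻¹ x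
    · refine Or.inr ?_
      simp only [mem_ofPred_eq, inv_inv]
      exact asymm h
    · exact Or.inl h
  · intro x h1 h2
    simp only [mem_ofPred_eq, inv_inv] at h1 h2
    rcases trichotomous_of WellOrderingRel x x⁻¹ with h | h | h
    · exact (h2 h).elim
    · exact h
    · exact (h1 h).elim

theorem pigeon (c : Fin 3 → Bool) : ∃ l l', l ≠ l' ∧ c l = c l' := by
  revert c
  decide

variable {G : CappedGrope}

theorem kind_inl {κ : Fin G.plumbings.length → Bool ⊕ Finset Γ} {k : Fin G.plumbings.length}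
    {σ : Bool} (h : κ k = .inl σ) (b : Bool) : kindOf G κ k b = .inl (b == σ) := by
  rw [kindOf, h]
  rfl

theorem kind_inr {κ : Fin G.plumbings.length → Bool ⊕ Finset Γ} {k : Fin G.plumbings.length}
    {F : Finset Γ} (h : κ k = .inr F) (b : Bool) : kindOf G κ k b = .inr F := by
  rw [kindOf, h]
  rfl

theorem tame_two (g : Fin G.plumbings.length → Γ)
    (hg : ∀ j i : ℕ, ∃ a b : Γ, ∀ k s, (tipOf G k s = (0, j, true) ∨
      tipOf G k s = (j + 1, i, false) ∨ tipOf G k s = (j + 1, i, true)) →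
      g k = 1 ∨ g k = a ∨ g k = a⁻¹ ∨ g k = b ∨ g k = b⁻¹) : ∃ κ, Tame G g κ := by
  classical
  obtain ⟨N, hN1, hN2⟩ := exists_half Γ
  refine ⟨fun k => .inl (decide (g k ∈ N)), ?_⟩
  intro j i k b h0 h1 h2
  obtain ⟨x, y, hxy⟩ := hg j i
  by_cases hp : ∃ l, kindOf G (fun k => (.inl (decide (g k ∈ N)) : Bool ⊕ Finset Γ)) (k l)
      (b l) = .inl true
  · exact Or.inl hp
  have hn : ∀ l, lab G g (k l) (b l) ∈ N := by
    intro l
    have h3 : ¬ (b l == decide (g (k l) ∈ N)) = true := by
      intro h4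
      refine hp ⟨l, ?_⟩
      rw [kind_inl (σ := decide (g (k l) ∈ N)) rfl, h4]
    unfold lab
    cases hb : b l
    · rw [hb] at h3
      simp only [Bool.false_eq_true, if_false]
      by_contra h4
      simp [h4] at h3
    · rw [hb] at h3
      simp only [if_true]
      refine (hN1 (g (k l))).resolve_left fun h4 => ?_
      simp [h4] at h3
  have ht : ∀ l, lab G g (k l) (b l) = 1 ∨
      (lab G g (k l) (b l) = x ∨ lab G g (k l) (b l) = x⁻¹) ∨
      (lab G g (k l) (b l) = y ∨ lab G g (k l) (b l) = y⁻¹) := by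
    intro l
    have h3 : g (k l) = 1 ∨ g (k l) = x ∨ g (k l) = x⁻¹ ∨ g (k l) = y ∨ g (k l) = y⁻¹ := by
      refine hxy (k l) (b l) ?_
      fin_cases l
      · exact Or.inl h0
      · exact Or.inr (Or.inl h1)
      · exact Or.inr (Or.inr h2)
    unfold lab
    split_ifs
    · rcases h3 with h3 | h3 | h3 | h3 | h3 <;> rw [h3] <;> simp
    · rcases h3 with h3 | h3 | h3 | h3 | h3 <;> rw [h3] <;> simp
  by_cases h1' : ∃ l, lab G g (k l) (b l) = 1
  · exact Or.inr (Or.inl h1')
  obtain ⟨l, l', hll, hc⟩ := pigeon fun l => decide (lab G g (k l) (b l) = x ∨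
    lab G g (k l) (b l) = x⁻¹)
  refine Or.inr (Or.inr (Or.inl ⟨l, l', hll, ?_⟩))
  have key : ∀ u v w : Γ, u ∈ N → v ∈ N → (u = w ∨ u = w⁻¹) → (v = w ∨ v = w⁻¹) → u = v := by
    intro u v w hu hv h3 h4
    rcases h3 with rfl | rfl <;> rcases h4 with rfl | rfl
    · rfl
    · exact hN2 _ hu hv
    · have := hN2 _ hv hu
      exact this.symm
    · rfl
  by_cases h3 : lab G g (k l) (b l) = x ∨ lab G g (k l) (b l) = x⁻¹
  · have h4 : lab G g (k l') (b l') = x ∨ lab G g (k l') (b l') = x⁻¹ := by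
      rw [decide_eq_true h3] at hc
      exact of_decide_eq_true hc.symm
    exact key _ _ x (hn l) (hn l') h3 h4
  · have h4 : ¬ (lab G g (k l') (b l') = x ∨ lab G g (k l') (b l') = x⁻¹) := by
      rw [decide_eq_false h3] at hc
      exact of_decide_eq_false hc.symm
    have h5 := ((ht l).resolve_left fun h6 => h1' ⟨l, h6⟩).resolve_left h3
    have h6 := ((ht l').resolve_left fun h6 => h1' ⟨l', h6⟩).resolve_left h4
    exact key _ _ y (hn l) (hn l') h5 h6

/-- The elements of a finite subgroup. -/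
def elts (A : Subgroup Γ) (hA : Finite A) : Finset Γ :=
  Set.Finite.toFinset (show (A : Set Γ).Finite from hA)

theorem mem_elts {A : Subgroup Γ} {hA : Finite A} {f : Γ} : f ∈ elts A hA ↔ f ∈ A :=
  Set.Finite.mem_toFinset _

theorem overlap_eq_card (A : Subgroup Γ) (hA : Finite A) {g : Γ} (hg : g ∈ A) :
    overlap (elts A hA) g =
      (elts A hA).card := by
  classical
  rw [overlap_eq, Finset.filter_true_of_mem]
  intro f hf
  rw [mem_elts] at hf ⊢
  exact A.mul_mem hf hg

/-- Two labels in a finite subgroup. -/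
theorem tameAt_of_two {t : Fin 3 → Γ} {κ : Fin 3 → Bool ⊕ Finset Γ} (A : Subgroup Γ)
    (hA : Finite A) {l l' : Fin 3} (hll : l ≠ l')
    (h1 : κ l = .inr (elts A hA)) (h2 : t l ∈ A)
    (h3 : κ l' = .inr (elts A hA)) (h4 : t l' ∈ A) :
    TameAt t κ := by
  classical
  refine Or.inr (Or.inr (Or.inr ⟨elts A hA,
    ⟨1, mem_elts.2 A.one_mem⟩, ?_⟩))
  have h5 : ∑ l'' ∈ {l, l'}, (if κ l'' = .inr (elts A hA) then
      overlap (elts A hA) (t l'') else 0) =
      2 * (elts A hA).card := by
    rw [Finset.sum_pair hll, if_pos h1, if_pos h3, overlap_eq_card A hA h2,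
      overlap_eq_card A hA h4, two_mul]
  rw [← h5]
  exact Finset.sum_le_sum_of_subset (Finset.subset_univ _)

theorem lab_mem {g : Fin G.plumbings.length → Γ} {A : Subgroup Γ} {k : Fin G.plumbings.length}
    (h : g k ∈ A) (b : Bool) : lab G g k b ∈ A := by
  unfold lab
  split_ifs
  · exact A.inv_mem h
  · exact h

theorem tame_finite (g : Fin G.plumbings.length → Γ) (A B : Subgroup Γ) (hA : Finite A)
    (hB : Finite B) (hg : ∀ k, g k ∈ A ∨ g k ∈ B) : ∃ κ, Tame G g κ := by
  classical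
  refine ⟨fun k => .inr (if g k ∈ A then elts A hA else
    elts B hB), ?_⟩
  intro j i k b h0 h1 h2
  obtain ⟨l, l', hll, hc⟩ := pigeon fun l => decide (g (k l) ∈ A)
  by_cases h3 : g (k l) ∈ A
  · have h4 : g (k l') ∈ A := by
      rw [decide_eq_true h3] at hc
      exact of_decide_eq_true hc.symm
    exact tameAt_of_two A hA hll (kind_inr (by rw [if_pos h3]) _) (lab_mem h3 _)
      (kind_inr (by rw [if_pos h4]) _) (lab_mem h4 _)
  · have h4 : ¬ g (k l') ∈ A := by
      rw [decide_eq_false h3] at hc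
      exact of_decide_eq_false hc.symm
    exact tameAt_of_two B hB hll (kind_inr (by rw [if_neg h3]) _)
      (lab_mem ((hg _).resolve_left h3) _) (kind_inr (by rw [if_neg h4]) _)
      (lab_mem ((hg _).resolve_left h4) _)

theorem tame_mixed (g : Fin G.plumbings.length → Γ) (A : Subgroup Γ) (x : Γ) (hA : Finite A)
    (hg : ∀ k, g k ∈ A ∨ g k = x ∨ g k = x⁻¹) : ∃ κ, Tame G g κ := by
  classical
  refine ⟨fun k => if g k ∈ A then .inr (elts A hA) else
    .inl (decide (g k = x)), ?_⟩
  intro j i k b h0 h1 h2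
  by_cases hp : ∃ l, kindOf G (fun k => (if g k ∈ A then
      .inr (elts A hA) else .inl (decide (g k = x)) :
      Bool ⊕ Finset Γ)) (k l) (b l) = .inl true
  · exact Or.inl hp
  obtain ⟨l, l', hll, hc⟩ := pigeon fun l => decide (g (k l) ∈ A)
  by_cases h3 : g (k l) ∈ A
  · have h4 : g (k l') ∈ A := by
      rw [decide_eq_true h3] at hc
      exact of_decide_eq_true hc.symm
    exact tameAt_of_two A hA hll (kind_inr (if_pos h3) _) (lab_mem h3 _)
      (kind_inr (if_pos h4) _) (lab_mem h4 _)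
  · have h4 : ¬ g (k l') ∈ A := by
      rw [decide_eq_false h3] at hc
      exact of_decide_eq_false hc.symm
    have key : ∀ m, g (k m) ∉ A → lab G g (k m) (b m) = x := by
      intro m hm
      have h5 : ¬ (b m == decide (g (k m) = x)) = true := by
        intro h6
        refine hp ⟨m, ?_⟩
        rw [kind_inl (σ := decide (g (k m) = x)) (if_neg hm), h6]
      have h7 := (hg (k m)).resolve_left hm
      unfold lab
      cases hb : b m
      · rw [hb] at h5
        simp only [Bool.false_eq_true, if_false]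
        by_contra h8
        simp [h8] at h5
      · rw [hb] at h5
        simp only [if_true]
        rcases h7 with h7 | h7
        · simp [h7] at h5
        · rw [h7, inv_inv]
    refine Or.inr (Or.inr (Or.inl ⟨l, l', hll, ?_⟩))
    simp only
    rw [key l h3, key l' h4]

theorem tame_small (g : Fin G.plumbings.length → Γ) (F : Finset Γ) (hF : F.Nonempty)
    (hg : ∀ k, 2 * F.card ≤ 3 * overlap F (g k)) : ∃ κ, Tame G g κ := by
  refine ⟨fun k => .inr F, ?_⟩
  intro j i k b h0 h1 h2
  refine Or.inr (Or.inr (Or.inr ⟨F, hF, ?_⟩))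
  have h3 : ∀ l, 2 * F.card ≤ 3 * overlap F (lab G g (k l) (b l)) := by
    intro l
    unfold lab
    split_ifs
    · rw [overlap_inv]
      exact hg _
    · exact hg _
  have h4 : ∀ l, kindOf G (fun _ => (.inr F : Bool ⊕ Finset Γ)) (k l) (b l) = .inr F :=
    fun l => kind_inr rfl _
  simp only [h4, if_true, Fin.sum_univ_three]
  have h5 := h3 0
  have h6 := h3 1
  have h7 := h3 2
  omega

end Vale.Agent.P215.TV
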