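import Mathlib

/-!
# P215: tame triples of labels

The kind of a label is a sign `.inl b`, or a finite set `.inr F` of group elements.
-/

namespace Vale.Agent.P215.TV

/-- The number of elements `f` of the finite set `F` for which `f * g` is in `F`, too. -/
noncomputable def overlap {Γ : Type} [Group Γ] (F : Finset Γ) (g : Γ) : ℕ := {f | f ∈ F ∧ f * g ∈ F}.ncard

open Classical in
/-- Three labels `t` with kinds `κ` are **tame**: one of them is positive, or one of them is
trivial, or two of them are equal, or the labels whose kind is a certain nonempty finite set `F` of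
group elements keep at least `2 * |F|` elements of `F` in `F` altogether. -/
def TameAt {Γ : Type} [Group Γ] (t : Fin 3 → Γ) (κ : Fin 3 → Bool ⊕ Finset Γ) : Prop :=
  (∃ l, κ l = .inl true) ∨ (∃ l, t l = 1) ∨ (∃ l l', l ≠ l' ∧ t l = t l') ∨
  ∃ F : Finset Γ, F.Nonempty ∧ 2 * F.card ≤ ∑ l, if κ l = .inr F then overlap F (t l) else 0

end Vale.Agent.P215.TV
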