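import Vale.Agent.P215.H788.Defs
import Vale.Agent.P215.TV.Tame

/-!
# P215: the double point loops of a capped grope

The *unplumbed thickening* of a capped grope is glued from the same blocks, without the plumbings of
the caps (it is contractible).  A double point of the caps is the common image of two points of the
unplumbed thickening, `sheet k false` in the first cap and `sheet k true` in the second one, and a
double point loop runs from the base point to the first of them and from the second of them to the
base point.
-/

noncomputable section

namespace Vale.Agent.P215.TV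

open Vale.Agent.P215.H788 Set Topology

section

variable (G : CappedGrope)

/-- The identifications of the blocks which do not come from the double points. -/
inductive Glue0 : Block × E → Block × E → Prop
  /-- the `j`-th handle is glued to the boundary of the `j`-th hole of the base -/
  | hole (s j : ℕ) (a v : ℝ × ℝ) (ha : a ∈ bdFib) :
      Glue0 (.base s, ((4 * j + a.1, a.2), 0, v)) (.handle s j, ((G.L, a.2), (G.L, a.1), v))
  /-- the next stage is attached to the first tip of a handle -/
  | fst (s j : ℕ) (z v : ℝ × ℝ) (hz : z ∈ bdSq G.L) (hv : v ∈ Fib) :
      Glue0 (nextBlock (s, j, false), (z, 0, v)) (.handle s j, (z, (0, v.1), (3, v.2)))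
  /-- the next stage is attached to the second tip of a handle -/
  | snd (s j : ℕ) (z v : ℝ × ℝ) (hz : z ∈ bdSq G.L) (hv : v ∈ Fib) :
      Glue0 (nextBlock (s, j, true), (z, 0, v)) (.handle s j, ((0, v.1), z, (1, v.2)))

variable {G}

theorem Glue0.glue {x y : Block × E} (h : Glue0 G x y) : G.Glue x y := by
  cases h with
  | hole s j a v ha => exact .hole s j a v ha
  | fst s j z v hz hv => exact .fst s j z v hz hv
  | snd s j z v hz hv => exact .snd s j z v hz hv

variable (G)

/-- **The thickening before the caps are plumbed.** -/
def Unplumbed : Type := Quot fun x y : G.Pts => Glue0 G x.1 y.1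

instance : TopologicalSpace (Unplumbed G) :=
  inferInstanceAs (TopologicalSpace (Quot fun x y : G.Pts => Glue0 G x.1 y.1))

/-- The projection to the thickening. -/
def proj : Unplumbed G → G.Thickening :=
  Quot.lift (fun x => Quot.mk _ x) fun _ _ h => Quot.sound h.glue

theorem continuous_proj : Continuous (proj G) :=
  continuous_quot_lift _ continuous_quot_mk

/-- The base point. -/
def base0 : Unplumbed G :=
  Quot.mk _ ⟨(.base 0, G.attachE (1, 0) 0), G.attachE_mem ⟨(1, 0), by simp [Prod.norm_mk]⟩ ⟨0, by simp⟩⟩

theorem proj_base0 : proj G (base0 G) = G.basePt := rfl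

/-- The cap at the side `b` of the double point number `k`: the first cap for `b = false`, the second
one for `b = true`. -/
def tipOf (k : Fin G.plumbings.length) (b : Bool) : Tip :=
  if b then (G.plumbings.get k).2.1 else (G.plumbings.get k).1

/-- The centre of the square of the double point number `k` in the cap at the side `b`. -/
def centre (k : Fin G.plumbings.length) (b : Bool) : E :=
  ((8 * (k : ℕ) + (if b then 6 else 2), 2), 0, (2, 2))

theorem tipOf_capped (k : Fin G.plumbings.length) (b : Bool) :
    IsCapped G.genera (tipOf G k b) := by
  have h := G.isCapped _ (List.get_mem G.plumbings k)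
  unfold tipOf
  cases b
  · exact h.1
  · exact h.2

theorem centre_mem (k : Fin G.plumbings.length) (b : Bool) :
    centre G k b ∈ G.region (.cap (tipOf G k b)) := by
  have h1 : (8 : ℝ) * (k : ℕ) + 8 ≤ G.L := by
    have h2 : (k : ℕ) + 1 ≤ G.plumbings.length := k.2
    have h3 : (8 : ℕ) * k + 8 ≤ 4 * (1 + G.genera.length + G.genera.sum +
        2 * G.plumbings.length) := by omega
    have h4 : ((8 * k + 8 : ℕ) : ℝ) ≤ ((4 * (1 + G.genera.length + G.genera.sum +
        2 * G.plumbings.length) : ℕ) : ℝ) := Nat.cast_le.2 h3
    unfold CappedGrope.L
    push_cast at h4 ⊢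
    linarith
  have h0 : (0 : ℝ) ≤ ((k : ℕ) : ℝ) := Nat.cast_nonneg _
  refine ⟨tipOf_capped G k b, ⟨⟨?_, ?_⟩, ⟨?_, ?_⟩⟩, rfl, ⟨⟨?_, ?_⟩, ⟨?_, ?_⟩⟩⟩
  all_goals cases b <;> simp only [centre, Bool.false_eq_true, if_false, if_true] <;> linarith

/-- The preimage of the double point number `k` in the cap at the side `b`. -/
def sheet (k : Fin G.plumbings.length) (b : Bool) : Unplumbed G :=
  Quot.mk _ ⟨(.cap (tipOf G k b), centre G k b), centre_mem G k b⟩

/-- Both preimages are mapped to the same point, the double point number `k`. -/
theorem proj_sheet (k : Fin G.plumbings.length) :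
    proj G (sheet G k false) = proj G (sheet G k true) := by
  have hk : G.plumbings[(k : ℕ)]? = some (G.plumbings.get k) := by
    rw [List.getElem?_eq_getElem k.2]
    rfl
  have h2 : ((2, 2) : ℝ × ℝ) ∈ Fib := by
    constructor <;> constructor <;> norm_num
  refine Quot.sound ?_
  change G.Glue (.cap (tipOf G k false), centre G k false) (.cap (tipOf G k true), centre G k true)
  unfold tipOf centre
  simp only [Bool.false_eq_true, if_false, if_true]
  rcases h : G.plumbings.get k with ⟨c, c', b⟩
  rw [h] at hk
  have hr : H788.refl (2, 2) = (2, 2) := by
    unfold H788.refl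
    norm_num
  have h4 : (8 : ℝ) * (k : ℕ) + 6 = 8 * (k : ℕ) + 4 + 2 := by ring
  rw [h4]
  cases b
  · have h3 := CappedGrope.Glue.neg (G := G) k c c' hk (2, 2) (2, 2) h2 h2
    rw [hr] at h3
    exact h3
  · exact CappedGrope.Glue.pos (G := G) k c c' hk (2, 2) (2, 2) h2 h2

/-- **The double point loop** number `k`, for a path `p` in the unplumbed thickening from the base
point to the first preimage of the double point and a path `q` from the second preimage to the base
point. -/
def loop (k : Fin G.plumbings.length) (p : Path (base0 G) (sheet G k false))
    (q : Path (sheet G k true) (base0 G)) : FundamentalGroup G.Thickening G.basePt :=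
  FundamentalGroup.fromPath (Path.Homotopic.Quotient.mk
    (((p.map (continuous_proj G)).cast (proj_base0 G).symm (proj_sheet G k).symm).trans
      ((q.map (continuous_proj G)).cast rfl (proj_base0 G).symm)))

/-- The capped grope `G` is **null** for the homomorphism `φ`: the thickening contains a framed
immersed disc with the given boundary whose double point loops are mapped to the identity. -/
def Null {Γ : Type} [Group Γ] (φ : FundamentalGroup G.Thickening G.basePt →* Γ) : Prop :=
  ∃ D : FramedDisc G.Thickening G.attach, D.Kills φ

/-- The values of `φ` on the double point loops. -/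
def values {Γ : Type} [Group Γ] (φ : FundamentalGroup G.Thickening G.basePt →* Γ) : Set Γ :=
  {g | ∃ k p q, φ (loop G k p q) = g}

/-- The values of `φ` on the loops of the double points on the three caps of the branch `(j + 1, i)`.
A *branch* is a handle `(j + 1, i)` of a second stage surface, with the two caps at its tips and with
the cap `(0, j, true)` dual to the second stage surface. -/
def valuesAt {Γ : Type} [Group Γ] (φ : FundamentalGroup G.Thickening G.basePt →* Γ) (j i : ℕ) :
    Set Γ :=
  {g | ∃ k p q, (∃ s, tipOf G k s = (0, j, true) ∨ tipOf G k s = (j + 1, i, false) ∨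
    tipOf G k s = (j + 1, i, true)) ∧ φ (loop G k p q) = g}

/-- The label of the side `b` of the double point number `k`: the loop leaves its base point to the
side `b`. -/
def lab {Γ : Type} [Group Γ] (g : Fin G.plumbings.length → Γ) (k : Fin G.plumbings.length)
    (b : Bool) : Γ :=
  if b then (g k)⁻¹ else g k

/-- The kind of the side `b` of the double point number `k`. -/
def kindOf {Γ : Type} (κ : Fin G.plumbings.length → Bool ⊕ Finset Γ)
    (k : Fin G.plumbings.length) (b : Bool) : Bool ⊕ Finset Γ :=
  Sum.map (fun σ => b == σ) id (κ k)

/-- **The condition on the labels** `g k` of the double points, for given kinds `κ`.  The kind `κ k`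
of a double point is `.inl σ` (it is oriented: the side `σ` is positive and the other side is
negative) or `.inr F` for a finite set `F` of group elements.  The condition says that any three
sides of double points on the three caps of a branch are tame. -/
def Tame {Γ : Type} [Group Γ] (g : Fin G.plumbings.length → Γ)
    (κ : Fin G.plumbings.length → Bool ⊕ Finset Γ) : Prop :=
  ∀ (j i : ℕ) (k : Fin 3 → Fin G.plumbings.length) (b : Fin 3 → Bool),
    tipOf G (k 0) (b 0) = (0, j, true) → tipOf G (k 1) (b 1) = (j + 1, i, false) →
    tipOf G (k 2) (b 2) = (j + 1, i, true) →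
    TameAt (fun l => lab G g (k l) (b l)) (fun l => kindOf G κ (k l) (b l))

end

end Vale.Agent.P215.TV
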