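import Vale.Agent.P215.TV.Cor
import Vale.Agent.P215.Am.SGAmen

/-!
# P215: amenable kernels
-/

noncomputable section

namespace Vale.Agent.P215.TV

open Vale.Agent.P215.H788 Vale.Agent.P215.Am Set Topology

/-- Sets with a small boundary in a quotient by an amenable subgroup lift to the group. -/
theorem exists_ext_set {Γ Q : Type} [Group Γ] [Group Q] (π : Γ →* Q)
    (hπ : Function.Surjective π) (hN : IsAmenable π.ker) (F₀ : Finset Q) (hF₀ : F₀.Nonempty)
    (S : Finset Γ) (hS : ∀ g ∈ S, 2 * F₀.card < 3 * overlap F₀ (π g)) :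
    ∃ F : Finset Γ, F.Nonempty ∧ ∀ g ∈ S, 2 * F.card ≤ 3 * overlap F g := by
  classical
  let σ : Q → Γ := Function.surjInv hπ
  have hσ : ∀ q, π (σ q) = q := Function.surjInv_eq hπ
  have hc : ∀ q g, σ q * g * (σ (q * π g))⁻¹ ∈ π.ker := by
    intro q g
    rw [MonoidHom.mem_ker]
    simp [hσ]
  let c : Q → Γ → π.ker := fun q g => ⟨_, hc q g⟩
  have hε : (0 : ℝ) < 1 / (2 * F₀.card + 1) := by positivity
  obtain ⟨Φ, hΦ, h1⟩ := hN.right ((F₀ ×ˢ S).image fun p => c p.1 p.2) hε
  have hinj : Set.InjOn (fun p : π.ker × Q => (p.1 : Γ) * σ p.2) (Φ ×ˢ F₀ : Finset _) := by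
    rintro ⟨n, q⟩ - ⟨n', q'⟩ - h
    simp only at h
    have h2 : q = q' := by
      have h3 := congrArg π h
      rw [map_mul, map_mul, MonoidHom.mem_ker.1 n.2, MonoidHom.mem_ker.1 n'.2, hσ, hσ, one_mul,
        one_mul] at h3
      exact h3
    subst h2
    have h3 : n = n' := Subtype.ext (mul_right_cancel h)
    rw [h3]
  refine ⟨(Φ ×ˢ F₀).image fun p => (p.1 : Γ) * σ p.2, (hΦ.product hF₀).image _, ?_⟩
  intro g hg
  have hcard : ((Φ ×ˢ F₀).image fun p => (p.1 : Γ) * σ p.2).card = Φ.card * F₀.card := by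
    rw [Finset.card_image_of_injOn hinj, Finset.card_product]
  have hlow : ∑ q ∈ F₀ with q * π g ∈ F₀, (Φ.filter fun n => n * c q g ∈ Φ).card ≤
      overlap ((Φ ×ˢ F₀).image fun p => (p.1 : Γ) * σ p.2) g := by
    rw [overlap_eq, ← Finset.card_sigma]
    refine Finset.card_le_card_of_injOn (fun p => (p.2 : Γ) * σ p.1) ?_ ?_
    · rintro ⟨q, n⟩ h
      rw [Finset.mem_coe, Finset.mem_sigma, Finset.mem_filter, Finset.mem_filter] at h
      rw [Finset.mem_coe, Finset.mem_filter]
      refine ⟨Finset.mem_image.2 ⟨(n, q), Finset.mem_product.2 ⟨h.2.1, h.1.1⟩, rfl⟩,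
        Finset.mem_image.2 ⟨(n * c q g, q * π g), Finset.mem_product.2 ⟨h.2.2, h.1.2⟩, ?_⟩⟩
      simp only [c, Subgroup.coe_mul]
      group
    · rintro ⟨q, n⟩ h ⟨q', n'⟩ h' he
      rw [Finset.mem_coe, Finset.mem_sigma, Finset.mem_filter, Finset.mem_filter] at h h'
      have h2 := hinj (x₁ := (n, q)) (x₂ := (n', q'))
        (Finset.mem_coe.2 (Finset.mem_product.2 ⟨h.2.1, h.1.1⟩))
        (Finset.mem_coe.2 (Finset.mem_product.2 ⟨h'.2.1, h'.1.1⟩)) he
      rw [Prod.mk.injEq] at h2
      obtain ⟨rfl, rfl⟩ := h2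
      rfl
  have hq : ∀ q ∈ F₀, ((1 : ℝ) - 1 / (2 * F₀.card + 1)) * Φ.card ≤
      ((Φ.filter fun n => n * c q g ∈ Φ).card : ℝ) := by
    intro q hq
    have h2 : ((Φ.filter fun n => ¬ n * c q g ∈ Φ).card : ℝ) <
        1 / (2 * F₀.card + 1) * Φ.card := by
      convert h1 (c q g) (Finset.mem_image.2 ⟨(q, g), Finset.mem_product.2 ⟨hq, hg⟩, rfl⟩)
    have h3 := Finset.card_filter_add_card_filter_not (s := Φ) fun n => n * c q g ∈ Φ
    have h4 : ((Φ.filter fun n => n * c q g ∈ Φ).card : ℝ) +
        (Φ.filter fun n => ¬ n * c q g ∈ Φ).card = Φ.card := by exact_mod_cast h3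
    linarith
  have h0 := hS g hg
  rw [overlap_eq] at h0
  have hsum : ((F₀.filter fun q => q * π g ∈ F₀).card : ℝ) *
      ((1 - 1 / (2 * F₀.card + 1)) * Φ.card) ≤
      (overlap ((Φ ×ˢ F₀).image fun p => (p.1 : Γ) * σ p.2) g : ℝ) := by
    refine le_trans ?_ (Nat.cast_le.2 hlow)
    rw [Nat.cast_sum, ← nsmul_eq_mul]
    exact Finset.card_nsmul_le_sum _ _ _ fun q h => hq q (Finset.mem_filter.1 h).1
  rw [hcard]
  have hm : (0 : ℝ) < 2 * F₀.card + 1 := by positivity
  have hk : (2 * (F₀.card : ℝ) + 1) ≤ 3 * (F₀.filter fun q => q * π g ∈ F₀).card := by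
    have : 2 * F₀.card + 1 ≤ 3 * (F₀.filter fun q => q * π g ∈ F₀).card := h0
    exact_mod_cast this
  have hfin : (2 * (Φ.card * F₀.card : ℕ) : ℝ) ≤
      3 * (overlap ((Φ ×ˢ F₀).image fun p => (p.1 : Γ) * σ p.2) g : ℝ) := by
    have h5 : (1 : ℝ) - 1 / (2 * F₀.card + 1) = 2 * F₀.card / (2 * F₀.card + 1) := by
      field_simp
      ring
    rw [h5] at hsum
    have h6 : (0 : ℝ) ≤ 2 * F₀.card / (2 * F₀.card + 1) * Φ.card := by positivity
    have h7 : (2 * (F₀.card : ℝ) + 1) * (2 * F₀.card / (2 * F₀.card + 1) * Φ.card) =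
        2 * (Φ.card * F₀.card) := by
      field_simp
    push_cast
    nlinarith
  exact_mod_cast hfin

/-! ### A finite subgroup and an involution -/

/-- A set with a small boundary for the elements of a finite subgroup `C` and an involution `s`. -/
theorem exists_set_of_involution {Q : Type} [Group Q] (C : Subgroup Q) (hC : Finite C) (s : Q)
    (hs : s * s = 1) (hsC : s ∉ C) (hCs : ∀ c ∈ C, s * c * s ∈ C → c = 1) :
    ∃ F : Finset Q, F.Nonempty ∧
      ∀ g, (g ∈ C ∨ g = s) → 2 * F.card < 3 * overlap F g := by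
  classical
  have h1 : (1 : Q) ∈ elts C hC := mem_elts.2 C.one_mem
  have hs' : s⁻¹ = s := inv_eq_of_mul_eq_one_left hs
  have d1 : Disjoint (elts C hC) ((elts C hC).image fun c => s * c) := by
    rw [Finset.disjoint_left]
    intro x hx hx'
    obtain ⟨c, hc, rfl⟩ := Finset.mem_image.1 hx'
    exact hsC ((C.mul_mem_cancel_right (mem_elts.1 hc)).1 (mem_elts.1 hx))
  have d2 : Disjoint (elts C hC) (((elts C hC).erase 1).image fun c => c * s) := by
    rw [Finset.disjoint_left]
    intro x hx hx'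
    obtain ⟨c, hc, rfl⟩ := Finset.mem_image.1 hx'
    exact hsC ((C.mul_mem_cancel_left (mem_elts.1 (Finset.mem_erase.1 hc).2)).1 (mem_elts.1 hx))
  have d3 : Disjoint ((elts C hC).image fun c => s * c)
      (((elts C hC).erase 1).image fun c => c * s) := by
    rw [Finset.disjoint_left]
    intro x hx hx'
    obtain ⟨c, hc, rfl⟩ := Finset.mem_image.1 hx
    obtain ⟨c', hc', he⟩ := Finset.mem_image.1 hx'
    have h2 := Finset.mem_erase.1 hc'
    refine h2.1 (hCs c' (mem_elts.1 h2.2) ?_)
    have h3 : s * c' * s = c := by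
      rw [mul_assoc, he, ← mul_assoc, hs, one_mul]
    rw [h3]
    exact mem_elts.1 hc
  have d4 : Disjoint (elts C hC ∪ (elts C hC).image fun c => s * c)
      (((elts C hC).erase 1).image fun c => c * s) := Finset.disjoint_union_left.2 ⟨d2, d3⟩
  have c1 : ((elts C hC).image fun c => s * c).card = (elts C hC).card :=
    Finset.card_image_of_injective _ (mul_right_injective s)
  have c2 : (((elts C hC).erase 1).image fun c => c * s).card = (elts C hC).card - 1 := by
    rw [Finset.card_image_of_injective _ (mul_left_injective s), Finset.card_erase_of_mem h1]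
  have c0 : 0 < (elts C hC).card := Finset.card_pos.2 ⟨1, h1⟩
  have cF : (elts C hC ∪ ((elts C hC).image fun c => s * c) ∪
      (((elts C hC).erase 1).image fun c => c * s)).card =
      (elts C hC).card + (elts C hC).card + ((elts C hC).card - 1) := by
    rw [Finset.card_union_of_disjoint d4, Finset.card_union_of_disjoint d1, c1, c2]
  refine ⟨elts C hC ∪ ((elts C hC).image fun c => s * c) ∪
    (((elts C hC).erase 1).image fun c => c * s), ⟨1, by simp [h1]⟩, ?_⟩
  rintro g (hg | rfl)
  · have hle : (elts C hC ∪ (elts C hC).image fun c => s * c).card ≤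
        overlap (elts C hC ∪ ((elts C hC).image fun c => s * c) ∪
          (((elts C hC).erase 1).image fun c => c * s)) g := by
      rw [overlap_eq]
      refine Finset.card_le_card fun x hx => ?_
      rw [Finset.mem_filter]
      refine ⟨Finset.mem_union_left _ hx, Finset.mem_union_left _ ?_⟩
      rcases Finset.mem_union.1 hx with hx | hx
      · exact Finset.mem_union_left _ (mem_elts.2 (C.mul_mem (mem_elts.1 hx) hg))
      · obtain ⟨c, hc, rfl⟩ := Finset.mem_image.1 hx
        refine Finset.mem_union_right _ (Finset.mem_image.2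
          ⟨c * g, mem_elts.2 (C.mul_mem (mem_elts.1 hc) hg), (mul_assoc _ _ _).symm⟩)
    rw [Finset.card_union_of_disjoint d1, c1] at hle
    omega
  · have d5 : Disjoint (elts C hC ∪ ((elts C hC).erase 1).image fun c => c * g)
        ({g} : Finset Q) := by
      rw [Finset.disjoint_singleton_right, Finset.mem_union]
      rintro (h | h)
      · exact hsC (mem_elts.1 h)
      · obtain ⟨c, hc, he⟩ := Finset.mem_image.1 h
        exact (Finset.mem_erase.1 hc).1 (mul_eq_right.1 he)
    have hle : (elts C hC ∪ (((elts C hC).erase 1).image fun c => c * g) ∪ {g}).card ≤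
        overlap (elts C hC ∪ ((elts C hC).image fun c => g * c) ∪
          (((elts C hC).erase 1).image fun c => c * g)) g := by
      rw [overlap_eq]
      refine Finset.card_le_card fun x hx => ?_
      rw [Finset.mem_filter]
      rcases Finset.mem_union.1 hx with hx | hx
      · rcases Finset.mem_union.1 hx with hx | hx
        · refine ⟨Finset.mem_union_left _ (Finset.mem_union_left _ hx), ?_⟩
          by_cases h3 : x = 1
          · rw [h3, one_mul]
            exact Finset.mem_union_left _ (Finset.mem_union_right _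
              (Finset.mem_image.2 ⟨1, h1, mul_one _⟩))
          · exact Finset.mem_union_right _ (Finset.mem_image.2
              ⟨x, Finset.mem_erase.2 ⟨h3, hx⟩, rfl⟩)
        · refine ⟨Finset.mem_union_right _ hx, ?_⟩
          obtain ⟨c, hc, rfl⟩ := Finset.mem_image.1 hx
          refine Finset.mem_union_left _ (Finset.mem_union_left _ ?_)
          rw [mul_assoc, hs, mul_one]
          exact (Finset.mem_erase.1 hc).2
      · rw [Finset.mem_singleton] at hx
        rw [hx, hs]
        exact ⟨Finset.mem_union_left _ (Finset.mem_union_right _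
          (Finset.mem_image.2 ⟨1, h1, mul_one _⟩)),
          Finset.mem_union_left _ (Finset.mem_union_left _ h1)⟩
    rw [Finset.card_union_of_disjoint d5, Finset.card_union_of_disjoint d2, c2,
      Finset.card_singleton] at hle
    omega

/-! ### The modular group -/

/-- The group of the integral matrices of determinant one. -/
abbrev SLZ : Type := Matrix.SpecialLinearGroup (Fin 2) ℤ

/-- Eight elements of the modular group, represented by matrices. -/
def list8 : List SLZ :=
  let s : SLZ := ModularGroup.S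
  let u : SLZ := ModularGroup.S * ModularGroup.T
  [1, u, u * u, s, s * u, s * u * u, u * s, s * u * s]

/-- The sixteen matrices over these elements. -/
def set16 : Finset SLZ := (list8 ++ list8.map fun m => -m).toFinset

theorem card_set16 : set16.card = 16 := by decide +kernel

theorem set16_nonempty : set16.Nonempty := Finset.card_pos.1 (by rw [card_set16]; norm_num)

theorem overlap_set16_S (g : SLZ) (hg : g ∈ Subgroup.zpowers (ModularGroup.S : SLZ)) :
    12 ≤ overlap set16 g := by
  obtain ⟨n, rfl⟩ := Subgroup.mem_zpowers_iff.1 hg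
  rw [zpow_eq_zpow_emod n (n := 4) (show (ModularGroup.S : SLZ) ^ 4 = 1 by decide +kernel)]
  rw [overlap_eq]
  have h0 : 0 ≤ n % (4 : ℕ) := Int.emod_nonneg _ (by norm_num)
  have h1 : n % (4 : ℕ) < (4 : ℕ) := Int.emod_lt_of_pos _ (by norm_num)
  generalize n % (4 : ℕ) = r at h0 h1
  obtain ⟨r, rfl⟩ := Int.eq_ofNat_of_zero_le h0
  have h2 : r < 4 := by exact_mod_cast h1
  rw [zpow_natCast]
  interval_cases r <;> decide +kernel

theorem overlap_set16_U (g : SLZ)
    (hg : g ∈ Subgroup.zpowers (ModularGroup.S * ModularGroup.T : SLZ)) :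
    12 ≤ overlap set16 g := by
  obtain ⟨n, rfl⟩ := Subgroup.mem_zpowers_iff.1 hg
  rw [zpow_eq_zpow_emod n (n := 6)
    (show (ModularGroup.S * ModularGroup.T : SLZ) ^ 6 = 1 by decide +kernel)]
  rw [overlap_eq]
  have h0 : 0 ≤ n % (6 : ℕ) := Int.emod_nonneg _ (by norm_num)
  have h1 : n % (6 : ℕ) < (6 : ℕ) := Int.emod_lt_of_pos _ (by norm_num)
  generalize n % (6 : ℕ) = r at h0 h1
  obtain ⟨r, rfl⟩ := Int.eq_ofNat_of_zero_le h0
  have h2 : r < 6 := by exact_mod_cast h1
  rw [zpow_natCast]
  interval_cases r <;> decide +kernel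

theorem isAmenable_ker_snd {A B : Type} [Group A] [Group B] (hA : IsAmenable A) :
    IsAmenable (MonoidHom.snd A B).ker := by
  let f : A →* (MonoidHom.snd A B).ker :=
    { toFun := fun a => ⟨(a, 1), by rw [MonoidHom.mem_ker]; rfl⟩
      map_one' := rfl
      map_mul' := fun a b => Subtype.ext (Prod.ext rfl (one_mul _).symm) }
  refine IsAmenable.of_surjective f ?_ hA
  rintro ⟨⟨a, b⟩, h⟩
  rw [MonoidHom.mem_ker] at h
  have h1 : b = 1 := h
  subst h1
  exact ⟨a, rfl⟩

/-! ### The consequences -/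

theorem null_of_ext (G : CappedGrope) (Γ Q : Type) [Group Γ] [Group Q]
    (φ : FundamentalGroup G.Thickening G.basePt →* Γ) (π : Γ →* Q)
    (hπ : Function.Surjective π) (hN : IsAmenable π.ker) (F₀ : Finset Q) (hF₀ : F₀.Nonempty)
    (h : ∀ k p q, 2 * F₀.card < 3 * overlap F₀ (π (φ (loop G k p q)))) :
    ∃ D : FramedDisc G.Thickening G.attach, D.Kills φ := by
  classical
  obtain ⟨p, q, hpq⟩ := exists_null G
  obtain ⟨F, hF, h1⟩ := exists_ext_set π hπ hN F₀ hF₀
    (Finset.univ.image fun k => φ (loop G k (p k) (q k))) (by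
      intro g hg
      obtain ⟨k, -, rfl⟩ := Finset.mem_image.1 hg
      exact h k (p k) (q k))
  obtain ⟨κ, hκ⟩ := tame_small (G := G) (fun k => φ (loop G k (p k) (q k))) F hF
    fun k => h1 _ (Finset.mem_image.2 ⟨k, Finset.mem_univ _, rfl⟩)
  exact hpq Γ φ κ hκ

theorem null_of_involution (G : CappedGrope) (Γ Q : Type) [Group Γ] [Group Q]
    (φ : FundamentalGroup G.Thickening G.basePt →* Γ) (π : Γ →* Q)
    (hπ : Function.Surjective π) (hN : IsAmenable π.ker) (C : Subgroup Q) (s : Q)
    (hC : Finite C) (hs : s * s = 1) (hsC : s ∉ C) (hCs : ∀ c ∈ C, s * c * s ∈ C → c = 1)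
    (h : ∀ k p q, π (φ (loop G k p q)) ∈ C ∨ π (φ (loop G k p q)) = s) :
    ∃ D : FramedDisc G.Thickening G.attach, D.Kills φ := by
  obtain ⟨F, hF, h1⟩ := exists_set_of_involution C hC s hs hsC hCs
  exact null_of_ext G Γ Q φ π hπ hN F hF fun k p q => h1 _ (h k p q)

theorem null_of_modular (G : CappedGrope) (A : Type) [Group A] (hA : IsAmenable A)
    (φ : FundamentalGroup G.Thickening G.basePt →* A × SLZ)
    (h : ∀ k p q, (φ (loop G k p q)).2 ∈ Subgroup.zpowers (ModularGroup.S : SLZ) ∨
      (φ (loop G k p q)).2 ∈ Subgroup.zpowers (ModularGroup.S * ModularGroup.T : SLZ)) :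
    ∃ D : FramedDisc G.Thickening G.attach, D.Kills φ := by
  refine null_of_ext G (A × SLZ) SLZ φ (MonoidHom.snd A SLZ) (fun b => ⟨(1, b), rfl⟩)
    (isAmenable_ker_snd hA) set16 set16_nonempty ?_
  intro k p q
  rw [card_set16]
  have h1 : 12 ≤ overlap set16 (MonoidHom.snd A SLZ (φ (loop G k p q))) := by
    rcases h k p q with h | h
    · exact overlap_set16_S _ h
    · exact overlap_set16_U _ h
  omega

end Vale.Agent.P215.TV
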