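import Vale.Agent.P215.TV.NetFlow
import Vale.Agent.P215.TV.Tame
import Vale.Agent.P215.Am.Rule

/-!
# P215: the rule for 3-port graphs with kinds
-/

noncomputable section

namespace Vale.Agent.P215.Am

open TV

variable {Γ : Type} [Group Γ] {T : Types Γ}

theorem overlap_eq [DecidableEq Γ] (F : Finset Γ) (g : Γ) :
    overlap F g = (F.filter fun f => f * g ∈ F).card := by
  rw [overlap, ← Set.ncard_coe_finset]
  congr 1
  ext f
  simp

/-- How a vertex chooses its leg. -/
inductive Mode (Γ : Type)
  | leg (l : Fin 3)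
  | flow (F : Finset Γ)
  | no

variable (kd : T.K → Bool ⊕ Finset Γ)

open Classical in
/-- The darts of the kind `F` keep many elements of `F` in `F`. -/
def Keeps (D : Fin 3 → T.K) (F : Finset Γ) : Prop :=
  F.Nonempty ∧ 2 * F.card ≤ ∑ l, if kd (D l) = .inr F then overlap F (T.t (D l)) else 0

open Classical in
/-- The mode of a vertex. -/
def mode (D : Fin 3 → T.K) : Mode Γ :=
  if ∃ l, kd (D l) = .inl true then .leg (anyOf (fun l => kd (D l) = .inl true) 0)
  else if ∃ F, Keeps kd D F then .flow (anyOf (Keeps kd D) ∅)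
  else .no

variable {kd}

theorem mode_leg {D : Fin 3 → T.K} {l : Fin 3} (h : mode kd D = .leg l) :
    kd (D l) = .inl true := by
  unfold mode at h
  split_ifs at h with h1 h2
  rw [← Mode.leg.inj h]
  exact anyOf_spec h1

theorem mode_flow {D : Fin 3 → T.K} {F : Finset Γ} (h : mode kd D = .flow F) :
    Keeps kd D F := by
  unfold mode at h
  split_ifs at h with h1 h2
  rw [← Mode.flow.inj h]
  exact anyOf_spec h2

theorem mode_no {D : Fin 3 → T.K} (h : mode kd D = .no) :
    (¬ ∃ l, kd (D l) = .inl true) ∧ ¬ ∃ F, Keeps kd D F := by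
  unfold mode at h
  split_ifs at h with h1 h2
  exact ⟨h1, h2⟩

theorem Keeps.exists {D : Fin 3 → T.K} {F : Finset Γ} (h : Keeps kd D F) :
    ∃ l, kd (D l) = .inr F := by
  by_contra hc
  push Not at hc
  have h1 := h.2
  simp only [hc, if_false, Finset.sum_const_zero] at h1
  have h2 := Finset.card_pos.2 h.1
  omega

namespace Port

variable (P : Port T) (kd)

/-- The pointer. -/
def kptr (x : P.X) : Fin 3 :=
  match mode kd (P.dart x) with
  | .leg l => l
  | .flow F => anyOf (fun l => 0 < P.nf (fun k => kd k = .inr F) F x l) 0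
  | .no => 0

variable {P kd}

theorem loc_kptr {R : ℕ} (hR : ∀ k F, kd k = .inr F → F.card ≤ R) :
    P.Loc (R + 1) (P.kptr kd) := by
  intro x y h
  have h1 : P.dart x = P.dart y := funext fun l => (h l).1
  unfold kptr
  rw [← h1]
  rcases h2 : mode kd (P.dart x) with l | F | _
  · rfl
  · simp only
    obtain ⟨l, hl⟩ := (mode_flow h2).exists
    have h3 := hR _ F hl
    congr 1
    funext l
    rw [show P.nf (fun k => kd k = .inr F) F x l = P.nf (fun k => kd k = .inr F) F y l from
      nf_loc l x y (h.mono (by omega))]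
  · rfl

theorem kptr_no_two {R M : ℕ} (hk : ∀ k, kd (T.flip k) = Sum.map (fun b => !b) id (kd k))
    (hR : ∀ k F, kd k = .inr F → F.card ≤ R) (hM : 2 ≤ M) (hRM : R + 1 ≤ M)
    (ht : ∀ x, TameAt (fun l => T.t (P.dart x l)) (fun l => kd (P.dart x l)))
    (x : P.X) (l : Fin 3) (hx : P.Far M x) (hy : P.Far M (P.nb x l))
    (h : P.kptr kd x = l) : P.kptr kd (P.nb x l) ≠ P.bk x l := by
  classical
  intro h'
  have hno : ∀ z, P.Far M z → mode kd (P.dart z) ≠ .no := by
    intro z hz h1
    obtain ⟨h2, h3⟩ := mode_no h1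
    rcases ht z with h5 | ⟨i, h5⟩ | ⟨i, j, h5, h6⟩ | h5
    · exact h2 h5
    · exact hz.ne_one (by omega) i h5
    · exact hz.ne_of_ne hM h5 h6
    · exact h3 h5
  have hback : kd (P.dart (P.nb x l) (P.bk x l)) = Sum.map (fun b => !b) id (kd (P.dart x l)) := by
    rw [dart_bk, hk]
  have hed : ∀ z i, P.Far M z → P.kptr kd z = i →
      (kd (P.dart z i) = .inl true ∨
      ∃ F, mode kd (P.dart z) = .flow F ∧ kd (P.dart z i) = .inr F ∧
        0 < P.nf (fun k => kd k = .inr F) F z i) := by
    intro z i hz h1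
    rcases h2 : mode kd (P.dart z) with j | F | _
    · rw [kptr, h2] at h1
      simp only at h1
      rw [← h1]
      exact Or.inl (mode_leg h2)
    · rw [kptr, h2] at h1
      simp only at h1
      have h3 : ∃ l, 0 < P.nf (fun k => kd k = .inr F) F z l := by
        have h4 := mode_flow h2
        refine exists_nf_pos h4.1 ?_
        refine h4.2.trans (le_of_eq ?_)
        refine Finset.sum_congr rfl fun l _ => ?_
        split_ifs with h5
        · rw [overlap_eq]
          rfl
        · rfl
      have h4 := anyOf_spec (d := 0) h3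
      rw [h1] at h4
      exact Or.inr ⟨F, rfl, nf_pos_imp h4, h4⟩
    · exact (hno z hz h2).elim
  rcases hed x l hx h with h1 | ⟨F, h1, h2, h3⟩
  · rw [h1] at hback
    rcases hed _ _ hy h' with h4 | ⟨F', -, h4, -⟩
    all_goals
      rw [hback] at h4
      simp at h4
  · rw [h2] at hback
    rcases hed _ _ hy h' with h4 | ⟨F', h5, h4, h6⟩
    · rw [hback] at h4
      simp at h4
    · rw [hback] at h4
      have h7 : F = F' := Sum.inr.inj h4
      subst h7
      have h8 := hR _ F h2
      have h9 := nf_add (P := P) (E := fun k => kd k = .inr F) (F := F) (x := x) (l := l)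
        (fun k hk' => by rw [hk, hk']; rfl) (hx.mono (by omega)) (hy.mono (by omega))
      linarith

/-- **The rule for 3-port graphs with kinds.** -/
theorem exists_rule_kinds (hk : ∀ k, kd (T.flip k) = Sum.map (fun b => !b) id (kd k))
    (ht : ∀ x, TameAt (fun l => T.t (P.dart x l)) (fun l => kd (P.dart x l))) :
    ∃ (n : ℕ) (st : P.X → St Γ), P.Loc n st ∧
      (∀ x i a b g, st x = .W i a b g → a ≠ b) ∧
      ∀ x l, Rel (role (st x) l) (role (st (P.nb x l)) (P.bk x l)) (T.t (P.dart x l)) := by
  obtain ⟨R, hR⟩ : ∃ R : ℕ, ∀ k F, kd k = .inr F → F.card ≤ R := by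
    refine ⟨∑ k, Sum.elim (fun _ => 0) (fun F : Finset Γ => F.card) (kd k), ?_⟩
    intro k F h
    have h5 := Finset.single_le_sum (f := fun k => Sum.elim (fun _ => 0)
      (fun F : Finset Γ => F.card) (kd k)) (fun _ _ => Nat.zero_le _) (Finset.mem_univ k)
    simp only [h, Sum.elim_inr] at h5
    exact h5
  exact P.exists_rule (R + 2) (P.kptr kd) ⟨_, loc_kptr hR⟩ fun x l h1 h2 =>
    kptr_no_two hk hR (by omega) (by omega) ht x l h1.far h2.far

end Port

end Vale.Agent.P215.Am
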