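import Vale.Agent.P215.TV.UMap
import Vale.Agent.P215.Am.Coc

/-!
# P215: the labels of the initial system and the double point loops
-/

noncomputable section

namespace Vale.Agent.P215.TV

open Vale.Agent.P215.H788 Vale.Agent.P215.H579 Vale.Agent.P215.Am Set Topology

/-! ### The path cocycle on loops -/

section Coc

variable {X : Type} [TopologicalSpace X] {Γ : Type} [Group Γ] {x₀ : X}

theorem loopOf_conj {p : X} (a b : Path x₀ p) (γ : Path p p) :
    loopOf a γ a = (loopOf a (Path.refl p) b)⁻¹ * loopOf b γ b * loopOf a (Path.refl p) b := by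
  have h3 : loopOf a γ a = loopOf a ((Path.refl p).trans (γ.trans (Path.refl p))) a := by
    rw [loopOf_eq, loopOf_eq]
    change _ = ((Path.Homotopic.Quotient.mk a).trans ((Path.Homotopic.Quotient.refl p).trans
      ((Path.Homotopic.Quotient.mk γ).trans (Path.Homotopic.Quotient.refl p)))).trans _
    rw [Path.Homotopic.Quotient.refl_trans, Path.Homotopic.Quotient.trans_refl]
  rw [h3, loopOf_trans a (Path.refl p) b, loopOf_trans b γ b]
  congr 2
  rw [eq_inv_iff_mul_eq_one]
  rw [← loopOf_trans, loopOf_eq]
  change ((Path.Homotopic.Quotient.mk a).trans ((Path.Homotopic.Quotient.refl p).trans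
    (Path.Homotopic.Quotient.refl p))).trans (Path.Homotopic.Quotient.mk a).symm = _
  rw [Path.Homotopic.Quotient.refl_trans, Path.Homotopic.Quotient.trans_refl,
    Path.Homotopic.Quotient.trans_symm]
  rfl

theorem loopOf_refl (γ : Path x₀ x₀) : loopOf (Path.refl x₀) γ (Path.refl x₀) =
    FundamentalGroup.fromPath (Path.Homotopic.Quotient.mk γ) := by
  rw [loopOf_eq]
  change ((Path.Homotopic.Quotient.refl x₀).trans (Path.Homotopic.Quotient.mk γ)).trans
    (Path.Homotopic.Quotient.mk (Path.refl x₀).symm) = _
  rw [Path.Homotopic.Quotient.refl_trans, Path.refl_symm]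
  change (Path.Homotopic.Quotient.mk γ).trans (Path.Homotopic.Quotient.refl x₀) = _
  rw [Path.Homotopic.Quotient.trans_refl]

/-- The value of the cocycle on loops at the base point. -/
theorem exists_coc_loop (φ : FundamentalGroup X x₀ →* Γ) : ∃ w : Γ, ∀ γ : Path x₀ x₀,
    (Coc.ofHom φ).val γ =
      w * (φ (FundamentalGroup.fromPath (Path.Homotopic.Quotient.mk γ)))⁻¹ * w⁻¹ := by
  have hj : Joined x₀ x₀ := Joined.refl x₀
  refine ⟨φ (loopOf (Path.refl x₀) (Path.refl x₀) hj.somePath), ?_⟩
  intro γ
  have h1 : (Coc.ofHom φ).val γ = (φ (loopOf hj.somePath γ hj.somePath))⁻¹ := dif_pos hj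
  have h2 := loopOf_conj (Path.refl x₀) hj.somePath γ
  rw [loopOf_refl] at h2
  rw [h1, h2, map_mul, map_mul, map_inv]
  group

end Coc

section Main

variable {G : CappedGrope} (T : ThetaDatum G.L)

theorem proj_initU (q : Q) : proj G (initU T q) = initMap T q := by
  rw [initU, initMap, mkU_of (RR_region T q), mk'_of (RR_region T q)]
  rfl

/-- The base point of the cube. -/
def oQ : Q := (Circ.toDisc ⟨(1, 0), by simp [Prod.norm_mk]⟩, Disc.zero)

/-- The centre of the cube. -/
def zQ : Q := (Disc.zero, Disc.zero)

theorem initU_oQ : initU T oQ = base0 G := by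
  have h1 : RR T oQ = (.base 0, (posD G.L oQ.1, 0, fb oQ.2)) := by
    refine RR_base T ?_
    intro j hj q hq
    have h2 := (isBox_hole (le_L_of hj)).mem q
    rw [← hq] at h2
    exact absurd (nm_circ _) (ne_of_lt h2)
  rw [initU, h1]
  exact mkU_of (G.attachE_mem ⟨(1, 0), by simp [Prod.norm_mk]⟩ ⟨0, by simp⟩)

theorem fb_zero : fb Disc.zero = (2, 2) := by
  simp [fb, Disc.zero]

theorem rfD_zero (b : Bool) : rfD b Disc.zero = Disc.zero := by
  cases b
  · apply Subtype.ext
    simp [rfD, Disc.zero]
  · rfl

theorem initU_false (k : Fin G.plumbings.length) :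
    initU T (initBox T (k, false) zQ) = sheet G k false := by
  have h1 : RR T (initBox T (k, false) zQ) = (.cap (tipOf G k false), centre G k false) := by
    rw [RR_initBox_false]
    unfold tipOf centre zQ
    simp only [sqp_eq_fb, fb_zero, Bool.false_eq_true, if_false]
    push_cast
    congr 3
    ring
  rw [initU, h1]
  exact mkU_of (centre_mem G k false)

theorem initU_true (k : Fin G.plumbings.length) :
    initU T (initBox T (k, true) zQ) = sheet G k true := by
  have h1 : RR T (initBox T (k, true) zQ) = (.cap (tipOf G k true), centre G k true) := by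
    rw [RR_initBox_true]
    unfold tipOf centre zQ
    simp only [rfD_zero, sqp_eq_fb, fb_zero, if_true]
    push_cast
    congr 3
    ring
  rw [initU, h1]
  exact mkU_of (centre_mem G k true)

/-- The path to the first preimage of a double point. -/
def pathP (k : Fin G.plumbings.length) : Path (base0 G) (sheet G k false) :=
  ((PathConnectedSpace.somePath oQ (initBox T (k, false) zQ)).map (continuous_initU T)).cast
    (initU_oQ T).symm (initU_false T k).symm

/-- The path from the second preimage of a double point. -/
def pathQ (k : Fin G.plumbings.length) : Path (sheet G k true) (base0 G) :=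
  ((PathConnectedSpace.somePath (initBox T (k, true) zQ) oQ).map (continuous_initU T)).cast
    (initU_true T k).symm (initU_oQ T).symm

/-- **The labels of the initial system are the values on the double point loops**, up to inversion
and conjugation. -/
theorem label_eq {Γ : Type} [Group Γ] (φ : FundamentalGroup G.Thickening G.basePt →* Γ)
    {t₀ : Fin G.plumbings.length × Bool → Γ}
    (ht : IsLabel (Coc.ofHom φ) (initDarts T) (initMap T) t₀) :
    ∃ e : Γ, ∀ k, t₀ (k, false) = e * (φ (loop G k (pathP T k) (pathQ T k)))⁻¹ * e⁻¹ := by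
  obtain ⟨w, hw⟩ := exists_coc_loop φ
  obtain ⟨h, hp, hh⟩ := ht
  refine ⟨h oQ * w, ?_⟩
  intro k
  have cF := continuous_initMap T
  have e0 : initMap T oQ = G.basePt := by rw [← proj_initU, initU_oQ, proj_base0]
  have e1 : initMap T (initBox T (k, false) zQ) = proj G (sheet G k false) := by
    rw [← proj_initU, initU_false]
  have e2 : initMap T (initBox T (k, true) zQ) = proj G (sheet G k true) := by
    rw [← proj_initU, initU_true]
  have h1 := hp cF (PathConnectedSpace.somePath oQ (initBox T (k, false) zQ))
  have h2 := hp cF (PathConnectedSpace.somePath (initBox T (k, true) zQ) oQ)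
  have h3 : ((pathP T k).map (continuous_proj G)).cast (proj_base0 G).symm
      (proj_sheet G k).symm = ((PathConnectedSpace.somePath oQ (initBox T (k, false) zQ)).map
        cF).cast e0.symm ((proj_sheet G k).symm.trans e1.symm) := by
    ext t
    exact proj_initU T _
  have h4 : ((pathQ T k).map (continuous_proj G)).cast rfl (proj_base0 G).symm =
      ((PathConnectedSpace.somePath (initBox T (k, true) zQ) oQ).map cF).cast e2.symm
        e0.symm := by
    ext t
    exact proj_initU T _
  have h5 : (Coc.ofHom φ).val ((((pathP T k).map (continuous_proj G)).cast (proj_base0 G).symm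
      (proj_sheet G k).symm).trans (((pathQ T k).map (continuous_proj G)).cast rfl
        (proj_base0 G).symm)) = (h oQ)⁻¹ * t₀ (k, false) * h oQ := by
    rw [Coc.trans, h3, h4, Coc.cast, Coc.cast, h1, h2]
    have h6 := hh (k, false) Disc.zero Disc.zero
    change h (initBox T (k, false) zQ) = t₀ (k, false) * h (initBox T (k, true) zQ) at h6
    rw [h6]
    group
  rw [hw] at h5
  change w * (φ (loop G k (pathP T k) (pathQ T k)))⁻¹ * w⁻¹ = _ at h5
  have h7 : t₀ (k, false) = h oQ * ((h oQ)⁻¹ * t₀ (k, false) * h oQ) * (h oQ)⁻¹ := by group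
  rw [h7, ← h5]
  group

end Main

end Vale.Agent.P215.TV
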