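import Vale.Agent.P215.Am.Flow
import Vale.Agent.P215.TV.Any

/-!
# P215: the net flow of a finite set

Let `F` be a finite subset of `Γ`.  For each element `f` of `F` and each vertex `x` of a 3-port graph
the vertices which can be reached from `x` by walks whose partial products `f * w` stay in `F` are a
tree, if `x` is far from the closed walks.  An edge of this tree carries the flow
`(n_A - n_B) / (n_A + n_B)`, where `n_A`, `n_B` are the numbers of the vertices at its two ends.  The
sum over all `f` is antisymmetric, and its divergence at `x` is positive if the labels of `x` move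
few elements of `F` out of `F`.
-/

noncomputable section

namespace Vale.Agent.P215.Am

open Finset

variable {Γ : Type} [Group Γ] {T : Types Γ}

namespace Port

section Flow

variable (P : Port T) (E : T.K → Prop) (F : Finset Γ)

open Classical in
/-- The number of vertices (up to distance `j`) behind the leg `l` of `x` in the tree of `f`. -/
def cn : ℕ → Γ → P.X → Fin 3 → ℕ
  | 0, _, _, _ => 0
  | j + 1, f, x, l => if E (P.dart x l) ∧ f * P.lab x l ∈ F then
      1 + ∑ l' ∈ univ.erase (P.bk x l), cn j (f * P.lab x l) (P.nb x l) l' else 0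

/-- The number of vertices of the tree. -/
def tt (f : Γ) (x : P.X) : ℕ := 1 + ∑ l, P.cn E F F.card f x l

open Classical in
/-- The flow through the leg `l`, for one element of `F`. -/
def nf1 (f : Γ) (x : P.X) (l : Fin 3) : ℝ :=
  if E (P.dart x l) ∧ f * P.lab x l ∈ F then
    ((P.tt E F f x : ℝ) - 2 * P.cn E F F.card f x l) / P.tt E F f x else 0

/-- **The net flow.** -/
def nf (x : P.X) (l : Fin 3) : ℝ := ∑ f ∈ F, P.nf1 E F f x l

variable {P E F}

theorem cn_loc (j : ℕ) (f : Γ) {x y : P.X} (h : P.Agree j x y) (l : Fin 3) :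
    P.cn E F j f x l = P.cn E F j f y l := by
  induction j generalizing f x y l with
  | zero => rfl
  | succ j ih =>
    have h1 : P.dart x l = P.dart y l := (h l).1
    have h2 : P.lab x l = P.lab y l := congrArg T.t (h l).1
    have h3 : P.bk x l = P.bk y l := congrArg (fun k => T.leg (T.flip k)) (h l).1
    by_cases hk : E (P.dart x l) ∧ f * P.lab x l ∈ F
    · have hk' : E (P.dart y l) ∧ f * P.lab y l ∈ F := by
        rw [← h1, ← h2]
        exact hk
      rw [cn, cn, if_pos hk, if_pos hk', h2, h3]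
      congr 1
      exact Finset.sum_congr rfl fun l' _ => ih _ (h l).2 l'
    · have hk' : ¬ (E (P.dart y l) ∧ f * P.lab y l ∈ F) := by
        rw [← h1, ← h2]
        exact hk
      rw [cn, cn, if_neg hk, if_neg hk']

theorem nf_loc (l : Fin 3) : P.Loc (F.card + 1) (fun x => P.nf E F x l) := by
  intro x y h
  have h0 : P.dart x l = P.dart y l := (h l).1
  have h2 : P.lab x l = P.lab y l := congrArg T.t (h l).1
  simp only [nf]
  refine Finset.sum_congr rfl fun f _ => ?_
  have h1 : ∀ l, P.cn E F F.card f x l = P.cn E F F.card f y l :=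
    fun l => cn_loc _ f h.pred l
  have h3 : P.tt E F f x = P.tt E F f y := by
    simp only [tt, h1]
  by_cases hk : E (P.dart x l) ∧ f * P.lab x l ∈ F
  · have hk' : E (P.dart y l) ∧ f * P.lab y l ∈ F := by
      rw [← h0, ← h2]
      exact hk
    rw [nf1, nf1, if_pos hk, if_pos hk', h1, h3]
  · have hk' : ¬ (E (P.dart y l) ∧ f * P.lab y l ∈ F) := by
      rw [← h0, ← h2]
      exact hk
    rw [nf1, nf1, if_neg hk, if_neg hk']

theorem exists_walk_cn (j : ℕ) (f : Γ) (x : P.X) (l : Fin 3)
    (h : P.cn E F (j + 1) f x l ≠ P.cn E F j f x l) :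
    ∃ ls, P.Red x (l :: ls) ∧ P.Stays F f x (l :: ls) ∧ (l :: ls).length = j + 1 := by
  induction j generalizing f x l with
  | zero =>
    have hF : E (P.dart x l) ∧ f * P.lab x l ∈ F := by
      by_contra hF
      exact h (by simp [cn, hF])
    exact ⟨[], trivial, ⟨hF.2, trivial⟩, rfl⟩
  | succ j ih =>
    have hF : E (P.dart x l) ∧ f * P.lab x l ∈ F := by
      by_contra hF
      refine h ?_
      rw [cn, cn, if_neg hF, if_neg hF]
    have h1 : ∃ l' ∈ univ.erase (P.bk x l), P.cn E F (j + 1) (f * P.lab x l) (P.nb x l) l' ≠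
        P.cn E F j (f * P.lab x l) (P.nb x l) l' := by
      by_contra hc
      push Not at hc
      apply h
      rw [cn, cn, if_pos hF, if_pos hF]
      congr 1
      exact Finset.sum_congr rfl hc
    obtain ⟨l', hl', h2⟩ := h1
    obtain ⟨ls, h3, h4, h5⟩ := ih _ _ _ h2
    refine ⟨l' :: ls, ⟨(Finset.mem_erase.1 hl').1, h3⟩, ⟨hF.2, h4⟩, ?_⟩
    simp only [List.length_cons] at h5 ⊢
    omega

theorem cn_stable {f : Γ} {x : P.X} {l : Fin 3} (hf : f ∈ F) (hx : P.Far (F.card + 1) x) :
    P.cn E F (F.card + 1) f x l = P.cn E F F.card f x l := by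
  classical
  by_contra h
  obtain ⟨ls, h1, h2, h3⟩ := exists_walk_cn _ _ _ _ h
  have := not_far_of_walk hf h1 h2 (by omega)
  rw [h3] at this
  exact this hx

theorem cn_eq_zero {j : ℕ} {f : Γ} {x : P.X} {l : Fin 3}
    (h : ¬ (E (P.dart x l) ∧ f * P.lab x l ∈ F)) : P.cn E F j f x l = 0 := by
  cases j with
  | zero => rfl
  | succ j => rw [cn, if_neg h]

theorem tt_pos (f : Γ) (x : P.X) : (0 : ℝ) < P.tt E F f x := by
  unfold tt
  positivity

open Classical in
/-- The divergence for one element of `F`. -/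
theorem sum_nf1 (f : Γ) (x : P.X) : (∑ l, if E (P.dart x l) ∧ f * P.lab x l ∈ F then (1 : ℝ)
    else 0) - 2 < ∑ l, P.nf1 E F f x l := by
  have h0 := tt_pos (E := E) (F := F) f x
  have h1 : ∀ l, P.nf1 E F f x l = (if E (P.dart x l) ∧ f * P.lab x l ∈ F then (1 : ℝ) else 0) -
      2 / P.tt E F f x * P.cn E F F.card f x l := by
    intro l
    unfold nf1
    split_ifs with h
    · field_simp
    · rw [cn_eq_zero h]
      simp
  simp only [h1, Finset.sum_sub_distrib, ← Finset.mul_sum]
  have h2 : ((P.tt E F f x : ℕ) : ℝ) = 1 + ∑ l, (P.cn E F F.card f x l : ℝ) := by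
    simp [tt]
  have h3 : 2 / (P.tt E F f x : ℝ) * ∑ l, (P.cn E F F.card f x l : ℝ) < 2 := by
    rw [div_mul_eq_mul_div, div_lt_iff₀ h0]
    linarith
  linarith

theorem cn_add_cn {f : Γ} {x : P.X} {l : Fin 3} (hf : f ∈ F)
    (hx : P.Far (F.card + 1) x) (hF : E (P.dart x l) ∧ f * P.lab x l ∈ F) :
    P.cn E F F.card f x l + P.cn E F F.card (f * P.lab x l) (P.nb x l) (P.bk x l) =
      P.tt E F (f * P.lab x l) (P.nb x l) := by
  classical
  rw [← cn_stable hf hx, cn, if_pos hF, tt, ← Finset.sum_erase_add _ _ (mem_univ (P.bk x l))]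
  ring

theorem nf1_add (hE : ∀ k, E k → E (T.flip k)) {f : Γ} {x : P.X} {l : Fin 3} (hf : f ∈ F)
    (hx : P.Far (F.card + 1) x) (hx' : P.Far (F.card + 1) (P.nb x l))
    (hF : E (P.dart x l) ∧ f * P.lab x l ∈ F) :
    P.nf1 E F f x l + P.nf1 E F (f * P.lab x l) (P.nb x l) (P.bk x l) = 0 := by
  have hF' : E (P.dart (P.nb x l) (P.bk x l)) ∧
      f * P.lab x l * P.lab (P.nb x l) (P.bk x l) ∈ F := by
    rw [lab_bk, mul_inv_cancel_right, dart_bk]
    exact ⟨hE _ hF.1, hf⟩
  have h1 := cn_add_cn hf hx hF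
  have h2 := cn_add_cn (l := P.bk x l) hF.2 hx' hF'
  rw [lab_bk, mul_inv_cancel_right, nb_bk, bk_bk] at h2
  have h3 : P.tt E F f x = P.tt E F (f * P.lab x l) (P.nb x l) := by omega
  unfold nf1
  rw [if_pos hF, if_pos hF', h3, ← add_div]
  have h4 : ((P.cn E F F.card f x l : ℕ) : ℝ) +
      P.cn E F F.card (f * P.lab x l) (P.nb x l) (P.bk x l)
      = P.tt E F (f * P.lab x l) (P.nb x l) := by exact_mod_cast h1
  rw [show ((P.tt E F (f * P.lab x l) (P.nb x l) : ℝ) - 2 * P.cn E F F.card f x l +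
    (P.tt E F (f * P.lab x l) (P.nb x l) -
      2 * P.cn E F F.card (f * P.lab x l) (P.nb x l) (P.bk x l))) = 0 by linarith]
  simp

/-- **The net flow is antisymmetric.** -/
theorem nf_add (hE : ∀ k, E k → E (T.flip k)) {x : P.X} {l : Fin 3}
    (hx : P.Far (F.card + 1) x) (hx' : P.Far (F.card + 1) (P.nb x l)) :
    P.nf E F x l + P.nf E F (P.nb x l) (P.bk x l) = 0 := by
  classical
  have hEE : E (P.dart (P.nb x l) (P.bk x l)) ↔ E (P.dart x l) := by
    rw [dart_bk]
    refine ⟨fun h => ?_, fun h => hE _ h⟩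
    have := hE _ h
    rwa [T.flip_flip] at this
  by_cases hk : E (P.dart x l)
  · unfold nf
    have e1 : ∑ f ∈ F, P.nf1 E F f x l = ∑ f ∈ F with f * P.lab x l ∈ F, P.nf1 E F f x l := by
      rw [Finset.sum_filter]
      refine Finset.sum_congr rfl fun f _ => ?_
      split_ifs with h
      · rfl
      · rw [nf1, if_neg fun h' => h h'.2]
    have e2 : ∑ f ∈ F, P.nf1 E F f (P.nb x l) (P.bk x l) =
        ∑ f ∈ F with f * (P.lab x l)⁻¹ ∈ F, P.nf1 E F f (P.nb x l) (P.bk x l) := by
      rw [Finset.sum_filter]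
      refine Finset.sum_congr rfl fun f _ => ?_
      split_ifs with h
      · rfl
      · rw [nf1, if_neg fun h' => h (by rw [← lab_bk]; exact h'.2)]
    have h1 : ∑ f ∈ F with f * (P.lab x l)⁻¹ ∈ F, P.nf1 E F f (P.nb x l) (P.bk x l) =
        ∑ f ∈ F with f * P.lab x l ∈ F, P.nf1 E F (f * P.lab x l) (P.nb x l) (P.bk x l) := by
      symm
      refine Finset.sum_bij (fun f _ => f * P.lab x l) ?_ ?_ ?_ ?_
      · intro f hf
        rw [Finset.mem_filter] at hf ⊢
        exact ⟨hf.2, by simpa using hf.1⟩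
      · intro f _ g _ h
        exact mul_right_cancel h
      · intro g hg
        rw [Finset.mem_filter] at hg
        exact ⟨g * (P.lab x l)⁻¹, by rw [Finset.mem_filter]; exact ⟨hg.2, by simpa using hg.1⟩,
          by simp⟩
      · intro f _
        rfl
    rw [e1, e2, h1, ← Finset.sum_add_distrib]
    refine Finset.sum_eq_zero fun f hf => ?_
    rw [Finset.mem_filter] at hf
    exact nf1_add hE hf.1 hx hx' ⟨hk, hf.2⟩
  · have e1 : P.nf E F x l = 0 := by
      refine Finset.sum_eq_zero fun f _ => ?_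
      rw [nf1, if_neg fun h' => hk h'.1]
    have e2 : P.nf E F (P.nb x l) (P.bk x l) = 0 := by
      refine Finset.sum_eq_zero fun f _ => ?_
      rw [nf1, if_neg fun h' => hk (hEE.1 h'.1)]
    rw [e1, e2, add_zero]

theorem nf_pos_imp {x : P.X} {l : Fin 3} (h : 0 < P.nf E F x l) : E (P.dart x l) := by
  by_contra hk
  have e1 : P.nf E F x l = 0 := by
    refine Finset.sum_eq_zero fun f _ => ?_
    rw [nf1, if_neg fun h' => hk h'.1]
  rw [e1] at h
  exact lt_irrefl _ h

open Classical in
/-- **The net flow has a positive divergence** where the labels move few elements out of `F`. -/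
theorem exists_nf_pos (hne : F.Nonempty) {x : P.X}
    (h : 2 * F.card ≤ ∑ l, if E (P.dart x l) then (F.filter fun f => f * P.lab x l ∈ F).card
      else 0) : ∃ l, 0 < P.nf E F x l := by
  by_contra hc
  push Not at hc
  have h1 : ∑ l, P.nf E F x l ≤ 0 := Finset.sum_nonpos fun l _ => hc l
  have h2 : ∑ l, P.nf E F x l = ∑ f ∈ F, ∑ l, P.nf1 E F f x l := Finset.sum_comm
  have h3 : ∑ f ∈ F, ((∑ l, if E (P.dart x l) ∧ f * P.lab x l ∈ F then (1 : ℝ) else 0) - 2) <
      ∑ f ∈ F, ∑ l, P.nf1 E F f x l :=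
    Finset.sum_lt_sum_of_nonempty hne fun f _ => sum_nf1 f x
  have h4 : ∑ f ∈ F, ((∑ l, if E (P.dart x l) ∧ f * P.lab x l ∈ F then (1 : ℝ) else 0) - 2) =
      ((∑ l, if E (P.dart x l) then (F.filter fun f => f * P.lab x l ∈ F).card
      else 0 : ℕ) : ℝ) - 2 * F.card := by
    rw [Finset.sum_sub_distrib, Finset.sum_comm, Finset.sum_const, nsmul_eq_mul, mul_comm (2 : ℝ),
      Nat.cast_sum]
    congr 1
    refine Finset.sum_congr rfl fun l _ => ?_
    by_cases hk : E (P.dart x l)
    · simp only [hk, true_and, if_true]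
      rw [Finset.card_filter]
      push_cast
      rfl
    · simp [hk]
  have h5 : ((2 * F.card : ℕ) : ℝ) ≤ ((∑ l, if E (P.dart x l) then
      (F.filter fun f => f * P.lab x l ∈ F).card else 0 : ℕ) : ℝ) := Nat.cast_le.2 h
  push_cast at h5 h4
  linarith

end Flow

end Port

end Vale.Agent.P215.Am
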