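import Vale.Agent.P215.Am.Init
import Vale.Agent.P215.TV.Defs

/-!
# P215: the initial map lifts to the unplumbed thickening
-/

noncomputable section

namespace Vale.Agent.P215.TV

open Vale.Agent.P215.H788 Vale.Agent.P215.H579 Vale.Agent.P215.Am Set Topology

section

variable (G : CappedGrope)

/-- The class of a point, with a junk value outside of the block. -/
def mkU (y : Block × H788.E) : Unplumbed G :=
  open Classical in
  if h : y.2 ∈ G.region y.1 then Quot.mk _ ⟨y, h⟩ else base0 G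

variable {G}

theorem mkU_of {y : Block × H788.E} (h : y.2 ∈ G.region y.1) :
    mkU G y = Quot.mk _ ⟨y, h⟩ := dif_pos h

theorem mkU_eq_of {y y' : Block × H788.E} (h : y.2 ∈ G.region y.1) (h' : y'.2 ∈ G.region y'.1)
    (hg : Glue0 G y y') : mkU G y = mkU G y' := by
  rw [mkU_of h, mkU_of h']
  exact Quot.sound hg

theorem glue0_tip (s j : ℕ) (b : Bool) {z v : ℝ × ℝ} (hz : z ∈ bdSq G.L) (hv : v ∈ Fib) :
    Glue0 G (nextBlock (s, j, b), (z, 0, v)) (.handle s j, tipMap b z v) := by
  cases b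
  · exact Glue0.fst s j z v hz hv
  · exact Glue0.snd s j z v hz hv

theorem contOn_mkU {A : Type} [TopologicalSpace A] {b : Block} {f : A → H788.E} {S : Set A}
    (hf : ContinuousOn f S) (hS : ∀ a ∈ S, f a ∈ G.region b) :
    ContinuousOn (fun a => mkU G (b, f a)) S := by
  rw [continuousOn_iff_continuous_domRestrict] at hf ⊢
  have h1 : Continuous fun a : S => (⟨(b, f a.1), hS a.1 a.2⟩ : G.Pts) :=
    Continuous.subtype_mk (continuous_const.prodMk hf) _
  have h2 : Continuous fun a : S => (Quot.mk _ (⟨(b, f a.1), hS a.1 a.2⟩ : G.Pts) :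
      Unplumbed G) := continuous_quot_mk.comp h1
  refine h2.congr ?_
  intro a
  exact (mkU_of (hS a.1 a.2)).symm

end

section Main

variable {G : CappedGrope} (T : ThetaDatum G.L)

/-! ### Continuity -/

/-- On a slab the class of the representative is the class of the point of the next stage. -/
theorem mkU_rep_slab {s k : ℕ} (hk : k < G.genus s) {b : Bool} {q : Q}
    (hq : s = 0 → ∀ m < G.genus (k + 1), ∀ a ∈ int, ∀ f, q ≠ inB T m (a, f))
    (h : T.θ q ∈ Slab G.L b) : mkU G (rep G.L s k (T.θ q)) =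
      mkU G (nextBlock (s, k, b), un b (T.θ q)) ∧
      un b (T.θ q) ∈ G.region (nextBlock (s, k, b)) := by
  have hL := four_le_L G
  have hr := rep_region T hk hq
  obtain ⟨z, hz, v, hv, h0⟩ := h
  have hr2 : ((z, 0, v) : H788.E) ∈ G.region (nextBlock (s, k, b)) := by
    by_cases hc : s = 0 ∧ b = false
    · obtain ⟨rfl, rfl⟩ := hc
      have h2 : nextBlock (0, k, false) = .base (k + 1) := by simp [nextBlock]
      rw [h2]
      have hg : 0 < G.genus (k + 1) := by
        have hk' : k < G.genera.length := hk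
        change 0 < G.genera.getD k 0
        rw [List.getD_eq_getElem _ _ hk']
        exact G.genera_pos _ (List.getElem_mem hk')
      refine ⟨hg, ⟨hz, ?_⟩, rfl, hv⟩
      intro m hm hh
      obtain ⟨a, ha, rfl⟩ := exists_hole hh
      obtain ⟨f, rfl⟩ := exists_fb hv
      exact hq rfl m hm a ha f (T.cover false m (le_L_of hm) q a f h0)
    · have h2 : nextBlock (s, k, b) = .cap (s, k, b) := by simp [nextBlock, hc]
      rw [h2]
      exact ⟨⟨hk, hc⟩, hz, rfl, hv⟩
  rw [h0, un_tip]
  refine ⟨?_, hr2⟩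
  by_cases hzb : z ∈ bdSq G.L
  · rw [rep_H ((tip_mem_iff hL hv).2 hzb)]
    refine (mkU_eq_of hr2 ?_ ?_).symm
    · rw [h0, rep_H ((tip_mem_iff hL hv).2 hzb)] at hr
      exact hr
    · exact glue0_tip s k b hzb hv
  · rw [rep_tip hL hv hzb]

theorem contOn_repU {s k : ℕ} (hk : k < G.genus s) {D : Set Q} (hD : IsClosed D)
    (hq : ∀ q ∈ D, s = 0 → ∀ m < G.genus (k + 1), ∀ a ∈ int, ∀ f, q ≠ inB T m (a, f)) :
    ContinuousOn (fun q => mkU G (rep G.L s k (T.θ q))) D := by
  have hL := four_le_L G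
  have hS : ∀ b : Bool, ContinuousOn (fun q => mkU G (rep G.L s k (T.θ q)))
      (D ∩ T.θ ⁻¹' Slab G.L b) := by
    intro b
    have h1 : ContinuousOn (fun q => mkU G (nextBlock (s, k, b), un b (T.θ q)))
        (D ∩ T.θ ⁻¹' Slab G.L b) := by
      refine contOn_mkU ((continuous_un b).comp T.cont).continuousOn ?_
      rintro q ⟨hqD, hqS⟩
      exact (mkU_rep_slab T hk (hq q hqD) hqS).2
    refine h1.congr ?_
    rintro q ⟨hqD, hqS⟩
    exact (mkU_rep_slab T hk (hq q hqD) hqS).1
  have hH : ContinuousOn (fun q => mkU G (rep G.L s k (T.θ q))) (D ∩ T.θ ⁻¹' HReg G.L) := by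
    have h1 : ContinuousOn (fun q => mkU G (.handle s k, T.θ q)) (D ∩ T.θ ⁻¹' HReg G.L) := by
      refine contOn_mkU T.cont.continuousOn ?_
      rintro q ⟨hqD, hqS⟩
      have := rep_region T hk (hq q hqD)
      rw [rep_H hqS] at this
      exact this
    refine h1.congr ?_
    rintro q ⟨hqD, hqS⟩
    simp only
    rw [rep_H hqS]
  have hc1 : IsClosed (D ∩ T.θ ⁻¹' HReg G.L) := hD.inter ((isClosed_HReg hL).preimage T.cont)
  have hc2 : ∀ b, IsClosed (D ∩ T.θ ⁻¹' Slab G.L b) :=
    fun b => hD.inter ((isClosed_Slab b).preimage T.cont)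
  have hu : D = (D ∩ T.θ ⁻¹' HReg G.L) ∪ ((D ∩ T.θ ⁻¹' Slab G.L true) ∪
      (D ∩ T.θ ⁻¹' Slab G.L false)) := by
    rw [← inter_union_distrib_left, ← inter_union_distrib_left]
    exact (inter_eq_left.2 fun q _ => T.mem q).symm
  rw [hu]
  exact hH.union_of_isClosed ((hS true).union_of_isClosed (hS false) (hc2 _) (hc2 _)) hc1
    ((hc2 _).union (hc2 _))

/-- On the boundary circle of a hole the representative in the handle is identified with the point
of the base. -/
theorem mkU_hole {s j : ℕ} (hj : j < G.genus s) (hs : 0 < G.genus s) {a : Disc} (ha : nm a = 1)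
    (f : Disc) (hq : Off T s j (a, f)) :
    mkU G (rep G.L s j (T.θ (a, f))) = mkU G (.base s, (sqp j a, 0, fb f)) := by
  have hL := four_le_L G
  have hj0 : (0 : ℝ) ≤ j := Nat.cast_nonneg j
  have hjL := pos_le_L G hj
  have hfa := nm_eq_one ha
  have h1 : T.θ (a, f) = ((G.L, (fb a).2), (G.L, (fb a).1), fb f) := T.bd a f ha
  have h2 : T.θ (a, f) ∈ HReg G.L := by
    rw [h1]
    refine ⟨⟨⟨⟨⟨?_, ?_⟩, ⟨?_, ?_⟩⟩, ?_⟩, ⟨⟨⟨?_, ?_⟩, ⟨?_, ?_⟩⟩, ?_⟩, ?_⟩, fb_mem f⟩
    · dsimp only; linarith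
    · exact le_rfl
    · dsimp only; linarith [(fb_mem a).2.1]
    · dsimp only; linarith [(fb_mem a).2.2]
    · exact Or.inr (Or.inl rfl)
    · dsimp only; linarith
    · exact le_rfl
    · dsimp only; linarith [(fb_mem a).1.1]
    · dsimp only; linarith [(fb_mem a).1.2]
    · exact Or.inr (Or.inl rfl)
    · rintro ⟨-, -, h3, h4⟩
      rcases hfa.2 with h | h | h | h
      · exact absurd h h4.1.ne'
      · exact absurd h h4.2.ne
      · exact absurd h h3.1.ne'
      · exact absurd h h3.2.ne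
  have hr := rep_region T hj fun hs m hm a' ha' f' => hq hs m hm (a', f')
  rw [rep_H h2] at hr ⊢
  refine (mkU_eq_of ?_ hr ?_).symm
  · refine ⟨hs, ⟨?_, ?_⟩, rfl, fb_mem f⟩
    · have := fb_mem a
      rw [sqp_eq_fb]
      refine ⟨⟨?_, ?_⟩, ⟨?_, ?_⟩⟩ <;> dsimp only <;>
        linarith [this.1.1, this.1.2, this.2.1, this.2.2]
    · intro m hm hh
      obtain ⟨a', ha', h3⟩ := exists_hole hh
      obtain ⟨rfl, rfl⟩ := sqp_disj h3
      exact absurd ha (ne_of_lt ha')
  · rw [h1]
    exact Glue0.hole s j (fb a) (fb f) hfa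

theorem continuous_R0U {j : ℕ} (hj : j < G.genus 0) : Continuous fun q => mkU G (R0 T j q) := by
  have hL := four_le_L G
  have hB : ∀ m : Fin (G.genus (j + 1)), IsBox (inB T (m : ℕ)) := fun m => isBox_inB T (le_L_of m.2)
  have hd : ∀ (m m' : Fin (G.genus (j + 1))) (p q : Q), inB T (m : ℕ) p = inB T (m' : ℕ) q →
      m = m' := fun m m' p q h => Fin.ext (inB_disj T (le_L_of m.2) (le_L_of m'.2) h).1
  have h1 := continuous_patch_on (X := Unplumbed G) hB hd
    (fun p => mkU G (rep G.L 0 j (T.θ p)))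
    (contOn_repU T hj (isOpen_iUnion fun m => (hB m).isOpen).isClosed_compl ?_)
    (fun m p => mkU G (rep G.L (j + 1) m (T.θ p))) ?_ ?_
  · refine h1.congr ?_
    intro q
    exact patch_comp (fun m : Fin (G.genus (j + 1)) => inB T (m : ℕ)) (mkU G)
      (fun p => rep G.L 0 j (T.θ p)) (fun m p => rep G.L (j + 1) m (T.θ p)) q
  · intro q hq _ m hm a ha f hqe
    apply hq
    rw [mem_iUnion]
    exact ⟨⟨m, hm⟩, (a, f), ha, hqe.symm⟩
  · intro m
    rw [← continuousOn_univ]
    exact contOn_repU T m.2 isClosed_univ fun q _ h => absurd h (Nat.succ_ne_zero j)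
  · rintro m ⟨a, f⟩ ha
    have hm := m.2
    have h2 := mkU_hole T hm (lt_of_le_of_lt (Nat.zero_le _) hm) (a := a) ha f
      (fun h => absurd h (Nat.succ_ne_zero j))
    rw [h2]
    have h3 : T.θ (inB T m (a, f)) = tipMap false (sqp m a) (fb f) := by
      rw [inB, vert, T.leg_eq, T.sq_eq false m (le_L_of hm)]
    have h4 : sqp m a ∉ bdSq G.L := by
      intro hz
      have hfa := fb_mem a
      have hmL := pos_le_L G hm
      rw [sqp_eq_fb] at hz
      have hm0 : (0 : ℝ) ≤ ((m : ℕ) : ℝ) := Nat.cast_nonneg _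
      refine inner_not_mem hz ?_ ?_ ?_ ?_ <;> dsimp only <;>
        linarith [hfa.1.1, hfa.1.2, hfa.2.1, hfa.2.2]
    rw [h3, rep_tip hL (fb_mem f) h4]
    simp [nextBlock]

/-- **The initial map.** -/
def initU (q : Q) : Unplumbed G := mkU G (RR T q)

theorem continuous_initU : Continuous (initU T) := by
  have hL := four_le_L G
  have hB : ∀ j : Fin (G.genus 0), IsBox (vert (holeSq G j)) := fun j => isBox_hole (le_L_of j.2)
  have hd : ∀ (j k : Fin (G.genus 0)) (p q : Q), vert (holeSq G j) p = vert (holeSq G k) q →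
      j = k := fun j k p q h => Fin.ext (hole_disj (le_L_of j.2) (le_L_of k.2) h).1
  have h1 := continuous_patch_on (X := Unplumbed G) hB hd
    (fun p => mkU G (.base 0, (posD G.L p.1, 0, fb p.2))) ?_
    (fun j p => mkU G (R0 T j p)) (fun j => continuous_R0U T j.2) ?_
  · refine h1.congr ?_
    intro q
    exact patch_comp (fun j : Fin (G.genus 0) => vert (holeSq G j)) (mkU G)
      (fun p => (.base 0, (posD G.L p.1, 0, fb p.2))) (fun j p => R0 T j p) q
  · refine contOn_mkU ?_ ?_
    · refine Continuous.continuousOn ?_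
      unfold posD fb
      fun_prop
    · intro p hp
      refine ⟨G.genus_zero_pos, ⟨posD_mem G _, ?_⟩, rfl, fb_mem _⟩
      intro j hj hh
      obtain ⟨a, ha, hz⟩ := exists_hole hh
      have h1 := holeSq_of_posD G (le_L_of hj) hz
      apply hp
      rw [mem_iUnion]
      exact ⟨⟨j, hj⟩, (a, p.2), ha, Prod.ext h1.symm rfl⟩
  · rintro j ⟨a, f⟩ ha
    have h2 : R0 T j (a, f) = rep G.L 0 j (T.θ (a, f)) := by
      refine patch_off _ _ ?_
      intro m q hq
      have h3 := (isBox_inB T (le_L_of m.2)).mem q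
      rw [hq] at h3
      exact absurd ha (ne_of_lt h3)
    have hoff : Off T 0 j (a, f) := by
      intro _ m hm r hr
      have h3 := (isBox_inB T (le_L_of hm)).mem r
      rw [← hr] at h3
      exact absurd ha (ne_of_lt h3)
    rw [h2, mkU_hole T j.2 G.genus_zero_pos ha f hoff]
    simp only [vert]
    rw [posD_hole G (le_L_of j.2)]


end Main

end Vale.Agent.P215.TV
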